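import Vale.Agent.P281Z.Rs.Defs
import Vale.Agent.P281Z.An.Basic

/-!
# P281, block RES: closures of differences, and the ideal of an analytic set
-/

open scoped Manifold ContDiff Topology
open Set Filter
open Vale.Agent.P272.K Vale.Agent.P277Z Vale.Agent.P277Z.Slc Vale.Agent.P277Z.Oka
open Vale.Agent.P277Z.Hir (Cpb)

noncomputable section

namespace Vale.Agent.P281Z.Rs

open Ana

theorem clo : CLO := fun _ _ _ _ h h' => h.clo h'

variable {n : ℕ} {W : Type} [TopologicalSpace W] [ChartedSpace (Cm n) W]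
  [IsManifold 𝓘(ℂ, Cm n) ω W]

/-- the generators of the ideal of an analytic set -/
theorem car_man {B : Set W} {x : W} (h : AnAt n B x) : ∃ (m : ℕ) (g : Fin m → W → ℂ),
    ∀ᶠ y in 𝓝 x, (∀ l, Hol n (g l) y) ∧ (y ∈ B ↔ ∀ l, g l y = 0) ∧
      ∀ f, Hol n f y → (∀ᶠ z in 𝓝 y, z ∈ B → f z = 0) → ∃ c : Fin m → W → ℂ,
        (∀ k, Hol n (c k) y) ∧ ∀ᶠ z in 𝓝 y, f z = ∑ k, c k z * g k z := by
  have he := at_chartAt (n := n) x
  set e := chartAt (Cm n) x
  obtain ⟨m, g, hg, h1, h2⟩ := (h.chart he).car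
  refine ⟨m, fun l y => g l (e y), ?_⟩
  filter_upwards [eventually_all.2 fun l => (Ana.hol_chart he (hg l)).near, at_near he,
    (e.continuousAt he.2).eventually (h1.and h2)] with y a b c
  refine ⟨a, by simpa only [mem_preimage, e.left_inv b.2] using c.1, fun f hf hv => ?_⟩
  obtain ⟨d, hd, k⟩ := c.2 _ (hf e b) (ev_symm b hv)
  refine ⟨fun k y => d k (e y), fun k => Ana.hol_chart b (hd k), ?_⟩
  filter_upwards [(e.continuousAt b.2).eventually k, at_near b] with z p q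
  simpa only [e.left_inv q.2] using p

omit [IsManifold 𝓘(ℂ, Cm n) ω W] in
theorem bound_of {x : W} {m m' : ℕ} {g : Fin m → W → ℂ} {g' : Fin m' → W → ℂ}
    (h : ∀ i, ∃ c : Fin m → W → ℂ, (∀ k, Hol n (c k) x) ∧
      ∀ᶠ z in 𝓝 x, g' i z = ∑ k, c k z * g k z) :
    ∃ C : ℝ, 0 < C ∧ ∀ᶠ z in 𝓝 x, ∑ i, ‖g' i z‖ ≤ C * ∑ k, ‖g k z‖ := by
  choose c hc e using h
  have h1 : ContinuousAt (fun z => ∑ i, ∑ k, ‖c i k z‖) x :=
    tendsto_finsetSum _ fun i _ => tendsto_finsetSum _ fun k _ => (hc i k).continuousAt.norm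
  refine ⟨∑ i, ∑ k, ‖c i k x‖ + 1, by positivity, ?_⟩
  filter_upwards [eventually_all.2 e, h1.eventually (eventually_lt_nhds (lt_add_one _))] with z a b
  refine le_trans ?_ (mul_le_mul_of_nonneg_right b.le (by positivity))
  rw [Finset.sum_mul]
  refine Finset.sum_le_sum fun i _ => ?_
  rw [a i, Finset.sum_mul]
  refine (norm_sum_le _ _).trans (Finset.sum_le_sum fun k _ => ?_)
  rw [norm_mul]
  exact mul_le_mul_of_nonneg_left
    (Finset.single_le_sum (fun j _ => norm_nonneg (g j z)) (Finset.mem_univ k)) (norm_nonneg _)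

theorem idl : IDL := by
  intro N M B hB
  choose m g h using fun x => car_man (hB x)
  choose U h1 h2 h3 using fun x => eventually_nhds_iff.1 (h x)
  have key : ∀ γ γ' x, x ∈ U γ → x ∈ U γ' →
      ∃ C : ℝ, 0 < C ∧ ∀ᶠ z in 𝓝 x, ∑ i, ‖g γ' i z‖ ≤ C * ∑ k, ‖g γ k z‖ := fun γ γ' x a b =>
    bound_of fun i => (h1 γ x a).2.2 _ ((h1 γ' x b).1 i) (by
      filter_upwards [(h2 γ').mem_nhds b] with z hz k using (h1 γ' z hz).2.1.1 k i)
  refine ⟨⟨M.X, U, m, g, h2, fun x => ⟨x, h3 x⟩, fun γ i x hx => (h1 γ x hx).1 i,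
    fun γ γ' x a b => ?_⟩, ?_, fun γ x hx => (h1 γ x hx).2.2⟩
  · obtain ⟨C, hC, k⟩ := key γ γ' x a b
    obtain ⟨C', hC', k'⟩ := key γ' γ x b a
    refine ⟨C + C', by positivity, ?_⟩
    filter_upwards [k, k'] with z p q
    exact ⟨q.trans (mul_le_mul_of_nonneg_right (by linarith) (by positivity)),
      p.trans (mul_le_mul_of_nonneg_right (by linarith) (by positivity))⟩
  · ext x
    exact ⟨fun k => (h1 x x (h3 x)).2.1.2 (k x (h3 x)), fun k γ hx => (h1 γ x hx).2.1.1 k⟩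

end Vale.Agent.P281Z.Rs
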