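import Vale.Agent.P281Z.Rs.Res
import Vale.Agent.P281Z.An.All
import Vale.Agent.P277Z.Hir.All

/-!
# P281, block RES: the theorems
-/

namespace Vale.Agent.P281Z

theorem Rs.res : Rs.RES := Rs.res_of P277Z.Hir.stMain Rs.clo

theorem res : RES := Rs.res' Rs.res

theorem rem : REM := rem_of_res res

theorem img : IMG := img_of_res res

end Vale.Agent.P281Z
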