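import Vale.Agent.P281Z.Rs.Defs
import Vale.Agent.P277Z.Slc.Basic
import Vale.Agent.P277Z.Slc.Unit

/-!
# P281, block RES: connected components and global exponents
-/

open scoped Manifold ContDiff Topology
open Set Filter
open Vale.Agent.P272.K (Cm Chart At)
open Vale.Agent.P277Z (Hol)
open Vale.Agent.P277Z.Slc (LEq Snc Ind)
open Vale.Agent.P277Z.Hir (Cpb)

set_option linter.unusedSectionVars false

noncomputable section

namespace Vale.Agent.P281Z

theorem Idl.mem_Z {n : ℕ} {X : Type} [TopologicalSpace X] [ChartedSpace (Cm n) X] {I : Idl n X}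
    {γ : I.Γ} {x : X} (hx : x ∈ I.U γ) : x ∈ I.Z ↔ ∀ i, I.g γ i x = 0 := by
  refine ⟨fun h => h γ hx, fun h γ' hx' i => ?_⟩
  obtain ⟨C, -, H⟩ := I.cpb γ γ' x hx hx'
  have h1 := H.self_of_nhds.2
  simp only [h, norm_zero, Finset.sum_const_zero, mul_zero] at h1
  exact norm_le_zero_iff.1 ((Finset.single_le_sum (f := fun i => ‖I.g γ' i x‖)
    (fun _ _ => norm_nonneg _) (Finset.mem_univ i)).trans h1)

namespace Rs.Cmp

variable {n : ℕ} {W : Type} [TopologicalSpace W] [ChartedSpace (Cm n) W] {y : W}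
  {a b c : W → ℂ}

theorem hol_one : Hol n (fun _ : W => (1 : ℂ)) y := fun _ _ => analyticAt_const

theorem hol_mul (ha : Hol n a y) (hb : Hol n b y) : Hol n (fun z => a z * b z) y :=
  fun e he => (ha e he).mul (hb e he)

theorem hol_pow (ha : Hol n a y) (m : ℕ) : Hol n (fun z => a z ^ m) y :=
  fun e he => (ha e he).pow m

variable (n) in
/-- equality up to a unit -/
def Eqv (y : W) (a b : W → ℂ) : Prop :=
  ∃ u : W → ℂ, Hol n u y ∧ u y ≠ 0 ∧ ∀ᶠ z in 𝓝 y, a z = u z * b z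

theorem Eqv.refl : Eqv n y a a :=
  ⟨fun _ => 1, hol_one, one_ne_zero, .of_forall fun _ => (one_mul _).symm⟩

theorem Eqv.symm (h : Eqv n y a b) : Eqv n y b a := by
  obtain ⟨u, h1, h2, h3⟩ := h
  refine ⟨fun z => (u z)⁻¹, fun e he => (h1 e he).inv (by rwa [e.left_inv he.2]), inv_ne_zero h2, ?_⟩
  filter_upwards [h3, h1.continuousAt.eventually_ne h2] with z h4 h5
  rw [h4, inv_mul_cancel_left₀ h5]

theorem Eqv.trans (h : Eqv n y a b) (h' : Eqv n y b c) : Eqv n y a c := by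
  obtain ⟨u, h1, h2, h3⟩ := h
  obtain ⟨v, k1, k2, k3⟩ := h'
  refine ⟨fun z => u z * v z, hol_mul h1 k1, mul_ne_zero h2 k2, ?_⟩
  filter_upwards [h3, k3] with z h4 h5
  rw [h4, h5, mul_assoc]

theorem Eqv.mul {a' b' : W → ℂ} (h : Eqv n y a b) (h' : Eqv n y a' b') :
    Eqv n y (fun z => a z * a' z) fun z => b z * b' z := by
  obtain ⟨u, h1, h2, h3⟩ := h
  obtain ⟨v, k1, k2, k3⟩ := h'
  refine ⟨fun z => u z * v z, hol_mul h1 k1, mul_ne_zero h2 k2, ?_⟩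
  filter_upwards [h3, k3] with z h4 h5
  rw [h4, h5, mul_mul_mul_comm]

theorem Eqv.pow (h : Eqv n y a b) (m : ℕ) : Eqv n y (fun z => a z ^ m) fun z => b z ^ m := by
  obtain ⟨u, h1, h2, h3⟩ := h
  exact ⟨fun z => u z ^ m, hol_pow h1 m, pow_ne_zero m h2, h3.mono fun z hz => by
    beta_reduce
    rw [hz, mul_pow]⟩

theorem Eqv.prod {κ : Type} (s : Finset κ) {f g : κ → W → ℂ} (h : ∀ k ∈ s, Eqv n y (f k) (g k)) :
    Eqv n y (fun z => ∏ k ∈ s, f k z) fun z => ∏ k ∈ s, g k z := by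
  classical
  induction s using Finset.induction_on with
  | empty => exact .refl
  | insert k s hk ih =>
    simp only [Finset.prod_insert hk]
    exact (h k (Finset.mem_insert_self _ _)).mul (ih fun j hj => h j (Finset.mem_insert_of_mem hj))

theorem Eqv.unit {G : Set W} (h : LEq n G y a) (hy : y ∉ G) (m : ℕ) :
    Eqv n y (fun z => a z ^ m) fun _ => 1 :=
  ⟨fun z => a z ^ m, hol_pow h.hol m, pow_ne_zero m fun h0 => hy (h.mem.1 h0),
    .of_forall fun _ => (mul_one _).symm⟩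

theorem mon_chg {κ κ' ι : Type} [Fintype κ] [Fintype κ'] {f : ι → W → ℂ} {ζ : κ → W → ℂ}
    {ζ' : κ' → W → ℂ} {e : κ → ℕ} {e' : κ' → ℕ} (h : Mon n f ζ e y)
    (H : Eqv n y (fun z => ∏ l, ζ l z ^ e l) fun z => ∏ l, ζ' l z ^ e' l) : Mon n f ζ' e' y := by
  obtain ⟨c, h1, ⟨k, h2⟩, h3⟩ := h
  obtain ⟨u, k1, k2, k3⟩ := H
  refine ⟨fun k z => c k z * u z, fun k => hol_mul (h1 k) k1, ⟨k, mul_ne_zero h2 k2⟩, ?_⟩
  filter_upwards [h3, k3] with z h4 h5 k
  rw [h4, h5, mul_assoc]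

open Classical in
/-- only the components through `y` matter -/
theorem eqv_sub {κ : Type} [Fintype κ] {G : κ → Set W} {ζ : κ → W → ℂ}
    (h : ∀ l, LEq n (G l) y (ζ l)) (e : κ → ℕ) : Eqv n y (fun z => ∏ l, ζ l z ^ e l)
      fun z => ∏ l : {l // y ∈ G l}, ζ l z ^ e l := by
  have h1 : ∀ z, ∏ l : {l // y ∈ G l}, ζ l z ^ e l = ∏ l, if y ∈ G l then ζ l z ^ e l else 1 :=
    fun z => by
      rw [← Finset.prod_filter]
      exact (Finset.prod_subtype (p := fun l => y ∈ G l) _ (by simp) fun l => ζ l z ^ e l).symm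
  simp only [h1]
  refine Eqv.prod _ fun l _ => ?_
  by_cases hy : y ∈ G l
  · simp only [if_pos hy]
    exact .refl
  · simp only [if_neg hy]
    exact Eqv.unit (h l) hy _

variable [IsManifold 𝓘(ℂ, Cm n) ω W]

/-- coordinates -/
theorem crd {α : Type} [Fintype α] {h : α → W → ℂ} (hi : Ind n h y) :
    ∃ (d : ℕ) (Θ : OpenPartialHomeomorph W ((α → ℂ) × Cm d)), y ∈ Θ.source ∧
      ∀ z ∈ Θ.source, ∀ a, (Θ z).1 a = h a z := by
  have he := P277Z.Slc.at_chartAt (n := n) y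
  have h1 : Fintype.card α ≤ n := by
    have := (hi.2 _ he).fintype_card_le_finrank
    rwa [← LinearEquiv.finrank_eq (LinearMap.toContinuousLinearMap (𝕜 := ℂ) (E := Cm n) (F' := ℂ)),
      Module.finrank_linearMap_self, Module.finrank_fin_fun] at this
  obtain ⟨Φ, P, h2, h3, -⟩ := hi.par (Nat.add_sub_cancel' h1) he
  refine ⟨_, (chartAt (Cm n) y).trans Φ, ⟨he.2, h2⟩, fun z hz a => ?_⟩
  rw [OpenPartialHomeomorph.trans_apply, h3, (chartAt (Cm n) y).left_inv hz.1]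

theorem curve {α : Type} [Fintype α] {h : α → W → ℂ} (hi : Ind n h y) (h0 : ∀ a, h a y = 0)
    {l : Filter ℝ} {t : ℝ → α → ℂ} (ht : Tendsto t l (𝓝 0)) :
    ∃ z : ℝ → W, Tendsto z l (𝓝 y) ∧ ∀ᶠ s in l, ∀ a, h a (z s) = t s a := by
  obtain ⟨d, Θ, hy, H⟩ := crd hi
  have h1 : Tendsto (fun s => (t s, (Θ y).2)) l (𝓝 (Θ y)) := by
    have : (Θ y).1 = 0 := funext fun a => (H y hy a).trans (h0 a)
    exact (this ▸ ht).prodMk_nhds tendsto_const_nhds
  refine ⟨fun s => Θ.symm (t s, (Θ y).2), (Θ.tendsto_symm hy).comp h1, ?_⟩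
  filter_upwards [h1.eventually (Θ.open_target.mem_nhds (Θ.map_source hy))] with s hs a
  rw [← H _ (Θ.map_target hs), Θ.right_inv hs]

theorem loc_conn {G : Set W} (h : LEq n G y a) (hy : y ∈ G) :
    ∀ᶠ z in 𝓝 y, z ∈ G → z ∈ connectedComponentIn G y := by
  have hi : Ind n (fun _ : Unit => a) y :=
    ⟨fun _ => h.hol, fun e he => linearIndependent_unique_iff.2 ((h.2 e he).2 (h.mem.2 hy))⟩
  obtain ⟨d, Θ, hy', H⟩ := crd hi
  obtain ⟨ε, hε, hb⟩ := Metric.eventually_nhds_iff_ball.1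
    (((Θ.tendsto_symm hy').eventually h.1).and (Θ.open_target.mem_nhds (Θ.map_source hy')))
  have hc : Convex ℝ (Metric.ball (Θ y) ε ∩ {v | v.1 = 0}) :=
    (convex_ball _ _).inter ((convex_singleton 0).linear_preimage (LinearMap.fst ℝ _ _))
  have h1 := hc.isPreconnected.image Θ.symm (Θ.continuousOn_symm.mono fun v hv => (hb v hv.1).2)
  have h2 : ∀ z ∈ Θ.source, Θ z ∈ Metric.ball (Θ y) ε → z ∈ G →
      z ∈ Θ.symm '' (Metric.ball (Θ y) ε ∩ {v | v.1 = 0}) := fun z hz h3 h4 => by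
    refine ⟨Θ z, ⟨h3, funext fun u => (H z hz u).trans ?_⟩, Θ.left_inv hz⟩
    have := (hb _ h3).1
    rw [Θ.left_inv hz] at this
    exact this.2 h4
  have h3 := h1.subset_connectedComponentIn (h2 y hy' (Metric.mem_ball_self hε) hy) (F := G) (by
    rintro _ ⟨v, hv, rfl⟩
    refine (hb v hv.1).1.1 ((H _ (Θ.map_target (hb v hv.1).2) ()).symm.trans ?_)
    rw [Θ.right_inv (hb v hv.1).2]
    exact congrFun hv.2 ())
  filter_upwards [Θ.open_source.mem_nhds hy',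
    (Θ.continuousAt hy').eventually (Metric.ball_mem_nhds _ hε)] with z h4 h5 h6
  exact h3 (h2 z h4 h5 h6)

theorem mon_le {α ι ι' : Type} [Fintype α] [Fintype ι] [Fintype ι'] {h : α → W → ℂ}
    (hi : Ind n h y) (h0 : ∀ a, h a y = 0) {f : ι → W → ℂ} {f' : ι' → W → ℂ} {e e' : α → ℕ}
    (H : Mon n f h e y) (H' : Mon n f' h e' y) {C : ℝ} (hC : 0 < C)
    (hb : ∀ᶠ z in 𝓝 y, ∑ i, ‖f i z‖ ≤ C * ∑ i, ‖f' i z‖) (a : α) : e' a ≤ e a := by
  classical
  by_contra! hlt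
  obtain ⟨c, h1, ⟨k, h2⟩, h3⟩ := H
  obtain ⟨c', k1, -, k3⟩ := H'
  set m : α → ℕ := fun b => if b = a then ∑ b, e b + 1 else 1 with hm
  have ht : Tendsto (fun (s : ℝ) b => (s : ℂ) ^ m b) (𝓝[>] 0) (𝓝 0) := by
    refine tendsto_pi_nhds.2 fun b => tendsto_nhdsWithin_of_tendsto_nhds ?_
    have hb : m b ≠ 0 := by simp only [hm]; split_ifs <;> simp
    simpa [hb] using ((Complex.continuous_ofReal.fun_pow (m b)).tendsto 0)
  obtain ⟨z, hz, hz'⟩ := curve hi h0 ht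
  have hs : ∑ b, m b * e b + 1 ≤ ∑ b, m b * e' b := by
    have e1 : ∑ b, m b * e b ≤ (∑ b, e b + 1) * e a + ∑ b, e b := by
      have : ∀ b, m b * e b ≤ (if b = a then (∑ b, e b + 1) * e a else 0) + e b := fun b => by
        simp only [hm]
        split_ifs with hb
        · rw [hb]; exact Nat.le_add_right _ _
        · simp
      refine (Finset.sum_le_sum fun b _ => this b).trans ?_
      simp [Finset.sum_add_distrib]
    have e2 := Finset.single_le_sum (f := fun b => m b * e' b) (fun _ _ => Nat.zero_le _)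
      (Finset.mem_univ a)
    simp only [hm, if_true] at e2
    have e3 := Nat.mul_le_mul_left (∑ b, e b + 1) (Nat.succ_le_of_lt hlt)
    rw [Nat.mul_succ] at e3
    simp only [hm] at e1 ⊢
    omega
  have l1 : Tendsto (fun s => ‖c k (z s)‖) (𝓝[>] 0) (𝓝 ‖c k y‖) :=
    ((h1 k).continuousAt.norm.tendsto).comp hz
  have l2 : Tendsto (fun s => C * (∑ i, ‖c' i (z s)‖) * s) (𝓝[>] 0)
      (𝓝 (C * (∑ i, ‖c' i y‖) * 0)) :=
    ((tendsto_finsetSum _ fun i _ => ((k1 i).continuousAt.norm.tendsto).comp hz).const_mul C).mul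
      (tendsto_nhdsWithin_of_tendsto_nhds tendsto_id)
  refine h2 (norm_le_zero_iff.1 ((le_of_tendsto_of_tendsto l1 l2 ?_).trans_eq (mul_zero _)))
  filter_upwards [hz.eventually h3, hz.eventually k3, hz.eventually hb, hz', self_mem_nhdsWithin,
    nhdsWithin_le_nhds (gt_mem_nhds (zero_lt_one (α := ℝ)))] with s a1 a2 a3 a4 a5 a6
  have s0 : (0 : ℝ) < s := a5
  have p : ∀ e : α → ℕ, ‖∏ b, h b (z s) ^ e b‖ = s ^ ∑ b, m b * e b := fun e => by
    simp only [a4, ← pow_mul, Finset.prod_pow_eq_pow_sum, norm_pow, Complex.norm_real,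
      Real.norm_of_nonneg s0.le]
  simp only [a1, a2, norm_mul, p, ← Finset.sum_mul] at a3
  have b1 := Finset.single_le_sum (f := fun i => ‖c i (z s)‖) (fun _ _ => norm_nonneg _)
    (Finset.mem_univ k)
  have b2 : s ^ ∑ b, m b * e' b ≤ s * s ^ ∑ b, m b * e b := by
    rw [← pow_succ']
    exact pow_le_pow_of_le_one s0.le (le_of_lt a6) hs
  refine b1.trans (le_of_mul_le_mul_right (a3.trans ?_) (pow_pos s0 _))
  rw [mul_assoc, mul_assoc]
  gcongr

theorem mon_pos {α ι : Type} [Fintype α] {h : α → W → ℂ} (hi : Ind n h y) (h0 : ∀ a, h a y = 0)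
    {f : ι → W → ℂ} {e : α → ℕ} (H : Mon n f h e y) (a : α)
    (hz : ∀ᶠ z in 𝓝 y, h a z = 0 → ∀ i, f i z = 0) : 0 < e a := by
  classical
  refine Nat.pos_of_ne_zero fun he => ?_
  obtain ⟨c, h1, ⟨k, h2⟩, h3⟩ := H
  have ht : Tendsto (fun (s : ℝ) b => if b = a then 0 else (s : ℂ)) (𝓝[>] 0) (𝓝 0) := by
    refine tendsto_pi_nhds.2 fun b => tendsto_nhdsWithin_of_tendsto_nhds ?_
    split_ifs
    · exact tendsto_const_nhds
    · simpa using Complex.continuous_ofReal.tendsto 0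
  obtain ⟨z, hz1, hz2⟩ := curve hi h0 ht
  obtain ⟨s, ⟨⟨⟨a1, a2⟩, a3⟩, a4⟩, a5⟩ := (((((hz1.eventually h3).and (hz1.eventually hz)).and
    (hz1.eventually ((h1 k).continuousAt.eventually_ne h2))).and hz2).and
      self_mem_nhdsWithin).exists
  have := (a1 k).symm.trans (a2 (by simp [a4]) k)
  refine mul_ne_zero a3 (Finset.prod_ne_zero_iff.2 fun b _ => ?_) this
  by_cases hb : b = a
  · simp [hb, he]
  · exact pow_ne_zero _ (by simpa [a4, hb] using (ne_of_gt a5 : s ≠ 0))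

/-- the components -/
theorem comps [CompactSpace W] {r : ℕ} {G : Fin r → Set W} (h : ∀ l y, ∃ ζ, LEq n (G l) y ζ) :
    ∃ (r' : ℕ) (p : Fin r' → Fin r) (G' : Fin r' → Set W), (∀ k, IsConnected (G' k)) ∧
      (∀ k, G' k ⊆ G (p k)) ∧ (∀ l, ∀ y ∈ G l, ∃ k, p k = l ∧ y ∈ G' k) ∧
      (∀ y k k', p k = p k' → y ∈ G' k → y ∈ G' k' → k = k') ∧
      ∀ k, ∀ y ∈ G' k, ∀ᶠ z in 𝓝 y, z ∈ G (p k) → z ∈ G' k := by
  set S : Fin r → Set (Set W) := fun l => connectedComponentIn (G l) '' G l with hS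
  have h1 : ∀ l, ∀ y ∈ G l, ∀ᶠ z in 𝓝 y, z ∈ G l → z ∈ connectedComponentIn (G l) y :=
    fun l y hy => (h l y).elim fun ζ hζ => loc_conn hζ hy
  have : ∀ l, Finite (S l) := fun l => by
    obtain ⟨t, ht, h2⟩ := (P277Z.Slc.isClosed_of_leq (h l)).isCompact.elim_nhds_subcover
      (fun y => {z | z ∈ G l → z ∈ connectedComponentIn (G l) y}) (h1 l)
    refine (t.finite_toSet.image (connectedComponentIn (G l))).subset ?_
    rintro _ ⟨z, hz, rfl⟩
    obtain ⟨y, hy, h3⟩ := mem_iUnion₂.1 (h2 hz)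
    exact ⟨y, hy, connectedComponentIn_eq (h3 hz)⟩
  obtain ⟨r', ⟨σ⟩⟩ := Finite.exists_equiv_fin (Σ l, S l)
  have h2 : ∀ q : Σ l, S l, ∀ y ∈ q.2.1, y ∈ G q.1 ∧ q.2.1 = connectedComponentIn (G q.1) y := by
    rintro ⟨l, _, z, hz, rfl⟩ y hy
    exact ⟨connectedComponentIn_subset _ _ hy, connectedComponentIn_eq hy⟩
  refine ⟨r', fun k => (σ.symm k).1, fun k => (σ.symm k).2.1, fun k => ?_,
    fun k y hy => (h2 _ y hy).1, fun l y hy => ⟨σ ⟨l, _, y, hy, rfl⟩, ?_⟩,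
    fun y k k' e hk hk' => σ.symm.injective ?_, fun k y hy => ?_⟩
  · obtain ⟨z, hz, e⟩ := (σ.symm k).2.2
    beta_reduce
    rw [← e]
    exact isConnected_connectedComponentIn_iff.2 hz
  · beta_reduce
    rw [σ.symm_apply_apply]
    exact ⟨rfl, mem_connectedComponentIn hy⟩
  · have a1 := (h2 _ y hk).2
    have a2 := (h2 _ y hk').2
    beta_reduce at e
    clear hk hk'
    revert e a1 a2
    generalize σ.symm k = q
    generalize σ.symm k' = q'
    obtain ⟨l, C⟩ := q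
    obtain ⟨l', C'⟩ := q'
    rintro (rfl : l = l') a1 a2
    exact congrArg _ (Subtype.ext (a1.trans a2.symm))
  · beta_reduce
    rw [(h2 _ y hy).2]
    exact h1 _ y (h2 _ y hy).1

variable [T2Space W] [SecondCountableTopology W]

theorem eqv_leq {G : Set W} (h : LEq n G y a) (h' : LEq n G y b) : Eqv n y a b :=
  P277Z.Slc.stUnit n W G y b a h' h

theorem mon_near {κ ι : Type} [Fintype κ] [Finite ι] {f : ι → W → ℂ} {ζ : κ → W → ℂ} {e : κ → ℕ}
    (h : Mon n f ζ e y) : ∀ᶠ z in 𝓝 y, Mon n f ζ e z := by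
  obtain ⟨c, h1, ⟨k, h2⟩, h3⟩ := h
  filter_upwards [eventually_all.2 fun k => (h1 k).near, (h1 k).continuousAt.eventually_ne h2,
    h3.eventually_nhds] with z a1 a2 a3
  exact ⟨c, a1, ⟨k, a2⟩, a3⟩

end Rs.Cmp

namespace Rs

open Cmp Classical in
/-- **COMP** -/
theorem comp : COMP := by
  intro n V J r G hG hZ hM
  obtain ⟨r', p, G', c1, c2, c3, c4, c5⟩ := comps fun l y => (hG y).elim fun ζ h => ⟨ζ l, h.1 l⟩
  choose ζ hζ hI using hG
  have h0 : ∀ y (l : {l // y ∈ G l}), ζ y l y = 0 := fun y l => (hζ y l).mem.2 l.2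
  have lq : ∀ {y k ξ}, y ∈ G' k → LEq n (G (p k)) y ξ → LEq n (G' k) y ξ := fun {y k ξ} hy h =>
    ⟨(h.1.and (c5 k y hy)).mono fun z hz => hz.1.trans ⟨hz.2, fun h => c2 k h⟩, h.2⟩
  set Q : V.X → (Fin r → ℕ) → Prop := fun y e => ∃ γ ξ, y ∈ J.U γ ∧ (∀ l, LEq n (G l) y (ξ l)) ∧
    Mon n (J.g γ) ξ e y with hQ
  have red : ∀ {y γ} {ξ : Fin r → V.X → ℂ} {e : Fin r → ℕ}, (∀ l, LEq n (G l) y (ξ l)) → Mon n (J.g γ) ξ e y →
      Mon n (J.g γ) (fun l : {l // y ∈ G l} => ζ y l) (fun l => e l) y := fun {y γ ξ e} h1 h2 =>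
    mon_chg h2 ((Eqv.prod _ fun l _ => (eqv_leq (h1 l) (hζ y l)).pow _).trans (eqv_sub (hζ y) e))
  have un : ∀ {y e e' l}, y ∈ G l → Q y e → Q y e' → e l = e' l := by
    rintro y e e' l hy ⟨γ, ξ, a1, a2, a3⟩ ⟨γ', ξ', b1, b2, b3⟩
    obtain ⟨C, hC, H⟩ := J.cpb γ γ' y a1 b1
    exact le_antisymm
      (mon_le (hI y) (h0 y) (red b2 b3) (red a2 a3) hC (H.mono fun _ h => h.2) ⟨l, hy⟩)
      (mon_le (hI y) (h0 y) (red a2 a3) (red b2 b3) hC (H.mono fun _ h => h.1) ⟨l, hy⟩)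
  have ev : ∀ {y e}, Q y e → ∀ᶠ z in 𝓝 y, Q z e := by
    rintro y e ⟨γ, ξ, a1, a2, a3⟩
    filter_upwards [(J.isOpen γ).mem_nhds a1, eventually_all.2 fun l => (a2 l).near, mon_near a3]
      with z b1 b2 b3
    exact ⟨γ, ξ, b1, b2, b3⟩
  have ex : ∀ y, ∃ e, Q y e := fun y => by
    obtain ⟨γ, hγ⟩ := J.cover y
    obtain ⟨e, ξ, h1, h2⟩ := hM y γ hγ
    exact ⟨e, γ, ξ, hγ, h1, h2⟩
  choose E hE using ex
  choose y₀ hy₀ using fun k => (c1 k).nonempty
  have cst : ∀ k, ∀ y ∈ G' k, E y (p k) = E (y₀ k) (p k) := fun k y hy =>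
    (c1 k).isPreconnected.constant (f := fun y => E y (p k)) (fun z hz =>
      continuousWithinAt_const.congr_of_eventuallyEq (by
        filter_upwards [nhdsWithin_le_nhds (ev (hE z)), self_mem_nhdsWithin] with w h1 h2
        exact un (c2 k h2) (hE w) h1) rfl) hy (hy₀ k)
  refine ⟨r', G', fun k => E (y₀ k) (p k), fun y => ?_, c1, fun y => (hZ y).trans
    ⟨fun ⟨l, h⟩ => (c3 l y h).imp fun _ h => h.2, fun ⟨k, h⟩ => ⟨_, c2 k h⟩⟩, fun k => ?_,
    fun y γ hγ ξ hξ => ?_⟩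
  · refine ⟨fun k => if y ∈ G' k then ζ y (p k) else fun _ => 1, fun k => ?_, ?_⟩
    · beta_reduce
      split_ifs with hy
      · exact lq hy (hζ y _)
      · refine ⟨?_, fun e he => ⟨analyticAt_const, fun h => (one_ne_zero h).elim⟩⟩
        simp only [one_ne_zero, false_iff]
        by_cases h1 : y ∈ G (p k)
        · obtain ⟨k', e, h2⟩ := c3 _ y h1
          exact (c5 k' y h2).mono fun z hz h3 =>
            hy (c4 z k k' e.symm h3 (hz (e ▸ c2 k h3)) ▸ h2)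
        · exact ((hζ y _).not_mem_near h1).mono fun z hz h3 => hz (c2 k h3)
    · have := (hI y).comp (fun k : {k // y ∈ G' k} => (⟨p k, c2 k k.2⟩ : {l // y ∈ G l}))
        fun k k' e => Subtype.ext (c4 y k k' (congrArg Subtype.val e) k.2 k'.2)
      refine (congrArg (Ind n · y) (funext fun k => ?_)).mp this
      exact (if_pos k.2).symm
  · obtain ⟨γ, ξ, a1, a2, a3⟩ := hE (y₀ k)
    refine mon_pos (hI _) (h0 _) (red a2 a3) ⟨p k, c2 k (hy₀ k)⟩ ?_
    filter_upwards [(hζ (y₀ k) (p k)).1, (J.isOpen γ).mem_nhds a1] with z b1 b2 b3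
    exact (hZ z).2 ⟨_, b1.1 b3⟩ γ b2
  · obtain ⟨e, ξ', h1, h2⟩ := hM y γ hγ
    refine mon_chg (red h1 h2) (Eqv.trans ?_ (eqv_sub hξ _).symm)
    have hb : Function.Bijective
        fun k : {k // y ∈ G' k} => (⟨p k, c2 k k.2⟩ : {l // y ∈ G l}) :=
      ⟨fun k k' e => Subtype.ext (c4 y k k' (congrArg Subtype.val e) k.2 k'.2),
        fun l => (c3 l y l.2).elim fun k h => ⟨⟨k, h.2⟩, Subtype.ext h.1⟩⟩
    simp only [← hb.prod_comp]
    refine Eqv.prod _ fun k _ => ?_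
    rw [← cst k y k.2, un (c2 k k.2) (hE y) ⟨γ, ξ', hγ, h1, h2⟩]
    exact (eqv_leq (lq k.2 (hζ y _)) (hξ k)).pow _

end Rs

end Vale.Agent.P281Z
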