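import Vale.Agent.P281Z.Rs.Defs
import Vale.Agent.P277Z.Hl.Posb
import Vale.Agent.P277Z.Pos.Kah
import Vale.Agent.P277Z.Slc.Div
import Vale.Agent.P284Y.O.Pot2

/-!
# P281, block RES: a manifold which is projective over a Kähler manifold is Kähler
-/

open scoped Manifold ContDiff Topology ComplexOrder
open Set Filter
open Vale.Agent.P272.K
open Vale.Agent.P285.H281.FD (Bd IsLB IsMet)
open Vale.Agent.P284Z (Psh levi cHess_quad cHess_psd_iff psh_of_levi)
open Vale.Agent.P284Y.Lib (levi_hol levi_sub levi_const_mul levi_congr exists_levi_bound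
  gsq_nonneg two_le_inf)
open Vale.Agent.P277Z (Hol)
open Vale.Agent.P277Z.Slc (LEq stUnit isClosed_of_leq at_chartAt tendsto_symm)
open Vale.Agent.P277Z.Slc.Dv (ext ext_eq ext_at dense_compl)
open Vale.Agent.P277Z.Pos (SPshAt FlatAt PosAt nsq rb kah)
open Vale.Agent.P277Z.Lo (ev_chart hol_mul hol_pow hol_inv hol_prod)
open Vale.Agent.P277Z.Hl.PosbH (exists_q levi_pos sp_cont flat_of)

noncomputable section

namespace Vale.Agent.P281Z.Rs

namespace Kahr

variable {n N : ℕ} {Y W : Type} [TopologicalSpace Y] [ChartedSpace (Cm n) Y] [TopologicalSpace W]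
  [ChartedSpace (Cm N) W] {π : Y → W} {y : Y}

theorem flat_cont {u : Y → ℝ} (h : FlatAt n u y) : ContinuousAt u y := by
  have he := at_chartAt (n := n) y
  refine ((h _ he).1.continuousAt.comp ((chartAt (Cm n) y).continuousAt he.2)).congr ?_
  filter_upwards [(chartAt (Cm n) y).open_source.mem_nhds he.2] with x hx
  simp [(chartAt (Cm n) y).left_inv hx]

theorem flat_comb {u a b : Y → ℝ} (k : ℝ) (ha : FlatAt n a y) (hb : FlatAt n b y)
    (h : ∀ᶠ x in 𝓝 y, u x = k * a x + b x) : FlatAt n u y := fun e he => by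
  have h1 : (fun z => u (e.symm z)) =ᶠ[𝓝 (e y)] fun z => k * a (e.symm z) + b (e.symm z) :=
    (ev_chart he).2 h
  refine ⟨((contDiffAt_const.mul (ha e he).1).add (hb e he).1).congr_of_eventuallyEq h1, ?_⟩
  rw [cHess_congr h1, cHess_add (contDiffAt_const.mul ((ha e he).1.of_le two_le_inf))
    ((hb e he).1.of_le two_le_inf), cHess_const_mul k ((ha e he).1.of_le two_le_inf), (ha e he).2,
    (hb e he).2, smul_zero, add_zero]

theorem ev_src (hπ : HolM n N π) {e : Chart n Y} {c : Chart N W} (he : At e y)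
    (hc : At c (π y)) : ∀ᶠ z in 𝓝 (e y), c.symm (c (π (e.symm z))) = π (e.symm z) :=
  ((hπ.continuous.tendsto y).comp (tendsto_symm he)).eventually (c.eventually_left_inverse hc.2)

variable [IsManifold 𝓘(ℂ, Cm n) ω Y] [IsManifold 𝓘(ℂ, Cm N) ω W]

theorem an_chart (hπ : HolM n N π) {e : Chart n Y} {c : Chart N W} (he : At e y)
    (hc : At c (π y)) : AnalyticAt ℂ (fun z => c (π (e.symm z))) (e y) := by
  refine ContDiffAt.analyticAt (𝕜 := ℂ) (contMDiffAt_iff_contDiffAt.1 ?_)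
  refine ContMDiffAt.comp (e y) (g := c) ?_
    ((hπ _).comp (e y) (chart_symm_contMDiffAt he.1 he.mem_target))
  rw [he.left_inv]
  exact chart_contMDiffAt hc

theorem hol_comp (hπ : HolM n N π) {g : W → ℂ} (hg : Hol N g (π y)) :
    Hol n (fun z => g (π z)) y := fun e he => by
  have hc := at_chartAt (n := N) (π y)
  refine (AnalyticAt.fun_comp (g := fun t => g ((chartAt (Cm N) (π y)).symm t))
    (by rw [he.left_inv]; exact hg _ hc) (an_chart hπ he hc)).congr ?_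
  filter_upwards [ev_src hπ he hc] with z hz
  rw [hz]

theorem flat_comp (hπ : HolM n N π) {u : W → ℝ} (hu : FlatAt N u (π y)) :
    FlatAt n (fun z => u (π z)) y := fun e he => by
  have hc := at_chartAt (n := N) (π y)
  set c := chartAt (Cm N) (π y)
  have h1 : (fun z => u (π (e.symm z))) =ᶠ[𝓝 (e y)]
      fun z => (fun t => u (c.symm t)) (c (π (e.symm z))) :=
    (ev_src hπ he hc).mono fun z hz => by simp only [hz]
  have h2 : ContDiffAt ℝ ∞ (fun t => u (c.symm t)) (c (π (e.symm (e y)))) := by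
    rw [he.left_inv]
    exact (hu c hc).1
  have h3 : ContDiffAt ℝ ∞ (fun z => u (π (e.symm z))) (e y) :=
    (ContDiffAt.comp (f := fun z => c (π (e.symm z))) (e y) h2
      ((an_chart hπ he hc).restrictScalars (𝕜 := ℝ)).contDiffAt).congr_of_eventuallyEq h1
  have h4 : ∀ w, levi (fun z => u (π (e.symm z))) (e y) w = 0 := fun w => by
    rw [levi_congr h1, levi_hol (an_chart hπ he hc) (h2.of_le two_le_inf), he.left_inv]
    have h5 := cHess_quad ((hu c hc).1.of_le two_le_inf)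
      (star (fderiv ℂ (fun z => c (π (e.symm z))) (e y) w))
    rw [(hu c hc).2, star_star, Matrix.zero_mulVec, dotProduct_zero, eq_comm,
      Complex.ofReal_eq_zero] at h5
    linarith
  refine ⟨h3, Matrix.ext_iff_mulVec.2 fun x => ?_⟩
  rw [Matrix.zero_mulVec, ← ((cHess_psd_iff (h3.of_le two_le_inf)).2
    fun w => (h4 w).ge).dotProduct_mulVec_zero_iff, cHess_quad (h3.of_le two_le_inf), h4]
  simp

/-- a large multiple of a strictly plurisubharmonic function dominates -/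
theorem big (hπ : HolM n N π) {e : Chart n Y} (he : At e y) {ψ : W → ℝ}
    (hψ : ∀ᶠ x in 𝓝 (π y), PosAt N ψ x) {m : ℕ} {g : Fin m → W → ℂ}
    (hg : ∀ j, Hol N (g j) (π y)) {q : ℝ} (hq : 0 ≤ q) :
    ∃ k₀ : ℕ, ∀ᶠ z in 𝓝 (e y), ∀ k : ℕ, k₀ ≤ k →
      ContDiffAt ℝ 2 (fun z => k * ψ (π (e.symm z)) - q * ∑ j, ‖g j (π (e.symm z))‖ ^ 2) z ∧
      ∀ w, 0 ≤ levi (fun z => k * ψ (π (e.symm z)) - q * ∑ j, ‖g j (π (e.symm z))‖ ^ 2) z w := by
  have hc := at_chartAt (n := N) (π y)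
  set c := chartAt (Cm N) (π y)
  have h1 : ∀ᶠ t in 𝓝 (c (π y)), (ContDiffAt ℝ 2 (fun t => ψ (c.symm t)) t ∧
      ∀ w, w ≠ 0 → 0 < levi (fun t => ψ (c.symm t)) t w) ∧
      ContDiffAt ℝ 2 (fun t => ∑ j, ‖g j (c.symm t)‖ ^ 2) t := by
    filter_upwards [(ev_chart hc).2 hψ, c.open_target.mem_nhds (c.map_source hc.2),
      eventually_all.2 fun j => (hg j c hc).eventually_analyticAt] with t a1 a2 a3
    have a4 := a1 c ⟨hc.1, c.map_target a2⟩
    rw [c.right_inv a2] at a4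
    exact ⟨⟨a4.1.of_le two_le_inf, fun w hw => levi_pos (a4.1.of_le two_le_inf) a4.2 hw⟩,
      ContDiffAt.sum fun j _ => ((a3 j).restrictScalars (𝕜 := ℝ)).contDiffAt.norm_sq ℝ⟩
  obtain ⟨K, k1, k2, k3⟩ := local_compact_nhds h1
  obtain ⟨M, hM0, hM⟩ := exists_levi_bound k3 (fun t ht => (k2 ht).1) fun t ht => (k2 ht).2
  have h2 : Tendsto (fun z => π (e.symm z)) (𝓝 (e y)) (𝓝 (π y)) :=
    (hπ.continuous.tendsto y).comp (tendsto_symm he)
  refine ⟨⌈q * M⌉₊, ?_⟩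
  filter_upwards [(an_chart hπ he hc).eventually_analyticAt,
    h2.eventually ((c.continuousAt hc.2).eventually k1), (ev_src hπ he hc).eventually_nhds]
    with z a1 a2 a3 k hk
  have b1 : ContDiffAt ℝ 2 (fun t => k * ψ (c.symm t)) (c (π (e.symm z))) :=
    contDiffAt_const.mul (k2 a2).1.1
  have b2 : ContDiffAt ℝ 2 (fun t => q * ∑ j, ‖g j (c.symm t)‖ ^ 2) (c (π (e.symm z))) :=
    contDiffAt_const.mul (k2 a2).2
  have b3 : (fun z => k * ψ (π (e.symm z)) - q * ∑ j, ‖g j (π (e.symm z))‖ ^ 2) =ᶠ[𝓝 z]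
      fun z => (fun t => k * ψ (c.symm t) - q * ∑ j, ‖g j (c.symm t)‖ ^ 2) (c (π (e.symm z))) :=
    a3.mono fun z hz => by simp only [hz]
  refine ⟨ContDiffAt.congr_of_eventuallyEq (ContDiffAt.comp (f := fun z => c (π (e.symm z))) z
    (b1.sub b2) (a1.restrictScalars (𝕜 := ℝ)).contDiffAt) b3, fun w => ?_⟩
  rw [levi_congr b3, levi_hol a1 (b1.sub b2), levi_sub b1 b2, levi_const_mul (k2 a2).1.1,
    levi_const_mul (k2 a2).2]
  set w' := fderiv ℂ (fun z => c (π (e.symm z))) z w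
  have b4 := hM _ a2 w'
  have b5 : 0 ≤ levi (fun t => ψ (c.symm t)) (c (π (e.symm z))) w' := by
    by_cases h : w' = 0
    · simp [h, levi]
    · exact ((k2 a2).1.2 w' h).le
  have b6 : q * M ≤ k := Nat.ceil_le.1 hk
  have b7 := (le_abs_self _).trans ((le_add_of_nonneg_left gsq_nonneg).trans b4)
  nlinarith [mul_le_mul_of_nonneg_left b7 hq, mul_le_mul_of_nonneg_right b6 b5]

/-- the local potentials -/
theorem loc (hπ : HolM n N π) {h : Y → ℝ} (hh : SPshAt n h y) {ψ : W → ℝ}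
    (hψ : ∀ᶠ x in 𝓝 (π y), PosAt N ψ x) {m : ℕ} {g : Fin m → W → ℂ}
    (hg : ∀ j, Hol N (g j) (π y)) {q : ℝ} (hq : 0 < q) : ∃ k₀ : ℕ, ∀ᶠ z in 𝓝 y, ∀ k : ℕ, k₀ ≤ k →
      SPshAt n (fun x => k * ψ (π x) + q * (h x - ∑ j, ‖g j (π x)‖ ^ 2)) z := by
  obtain ⟨e, he, δ, hδ, S, hS, h1, h2⟩ := hh
  obtain ⟨k₀, hk⟩ := big hπ he hψ hg hq.le
  refine ⟨k₀, ?_⟩
  filter_upwards [(e.continuousAt he.2).eventually (hk.and hS).eventually_nhds,
    e.open_source.mem_nhds he.2] with z b1 b3 k hk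
  refine ⟨e, ⟨he.1, b3⟩, q * δ, mul_pos hq hδ, _, b1, ?_, ?_⟩
  · refine ContinuousOn.congr (f := fun z => (k * ψ (π (e.symm z)) -
      q * ∑ j, ‖g j (π (e.symm z))‖ ^ 2) + q * h (e.symm z)) (ContinuousOn.add (fun t ht =>
        (ht.1 k hk).1.continuousAt.continuousWithinAt)
        (continuousOn_const.mul (h1.mono fun t ht => ht.2))) fun t _ => ?_
    dsimp only
    ring
  · have h3 : ContinuousOn (fun z => h (e.symm z) - δ * nsq z) S :=
      h1.sub (by unfold nsq; fun_prop)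
    refine ((psh_of_levi fun t ht => ht.1 k hk).add
      ((h2.mono fun t ht => ht.2).const_mul hq.le)
      (.of_cont fun t ht => (ht.1 k hk).1.continuousAt.continuousWithinAt)
      (.of_cont (continuousOn_const.mul (h3.mono fun t ht => ht.2)))).congr fun t _ => ?_
    dsimp only
    ring

/-- local potentials of a Kähler metric -/
theorem pots {w : Chart N W → Cm N → Matrix (Fin N) (Fin N) ℂ} (hw : IsKahler w) (x : W) :
    ∃ ψ : W → ℝ, ∀ᶠ t in 𝓝 x, ∀ e : Chart N W, At e t →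
      ContDiffAt ℝ ∞ (fun z => ψ (e.symm z)) (e t) ∧
        cHess (fun z => ψ (e.symm z)) (e t) = w e (e t) := by
  have hc := at_chartAt (n := N) x
  set c := chartAt (Cm N) x
  obtain ⟨ρ, h1, h2⟩ := P284Y.O2.pot_loc (W := w c) (c := c x) (hc.nhds_target.mono fun z hz => by
    have h3 := At.of_target hc.1 hz
    have h4 := hw.smooth c _ h3
    have h5 := hw.posDef c _ h3
    have h6 := hw.closed c _ h3
    rw [c.right_inv hz] at h4 h5 h6
    exact ⟨h4, h5.isHermitian, h6⟩)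
  refine ⟨fun t => ρ (c t), ?_⟩
  filter_upwards [(c.continuousAt hc.2).eventually h2, c.open_source.mem_nhds hc.2]
    with t a b e he
  have h3 := transition he (⟨hc.1, b⟩ : At c t)
  refine ⟨h1.contDiffAt.comp (e t) (h3.analyticAt.restrictScalars (𝕜 := ℝ)).contDiffAt, ?_⟩
  rw [cHess_comp (h1.contDiffAt.of_le two_le_inf) h3, he.left_inv, a,
    hw.change e c t he ⟨hc.1, b⟩, jacM_eq]

/-- the quotients of local equations -/
theorem quo [T2Space Y] [SecondCountableTopology Y] {G : Set Y} (hG : ∀ x, ∃ ζ, LEq n G x ζ)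
    {T : Type} (ζ : T → Y → ℂ) : ∃ t : T → T → Y → ℂ, ∀ a b y, LEq n G y (ζ a) → LEq n G y (ζ b) →
      Hol n (t a b) y ∧ t a b y ≠ 0 ∧ ζ a y = t a b y * ζ b y ∧
        ∀ c, LEq n G y (ζ c) → t a b y * t b c y = t a c y := by
  have hD := dense_compl hG
  have key : ∀ a b y, LEq n G y (ζ a) → LEq n G y (ζ b) →
      Hol n (ext Gᶜ fun y => ζ a y / ζ b y) y ∧ ext Gᶜ (fun y => ζ a y / ζ b y) y ≠ 0 ∧
        ∀ᶠ y' in 𝓝 y, ζ a y' = ext Gᶜ (fun y => ζ a y / ζ b y) y' * ζ b y' := by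
    intro a b y ha hb
    obtain ⟨u, h1, h2, h3⟩ := stUnit n Y G y _ _ hb ha
    have h4 := ext_eq (f := fun y => ζ a y / ζ b y) hD h1 (by
      filter_upwards [h3, hb.1] with y' h5 h6 h7
      rw [h5, mul_div_cancel_right₀ _ (mt h6.1 h7)])
    refine ⟨h1.congr h4, h4.self_of_nhds ▸ h2, ?_⟩
    filter_upwards [h3, h4] with y' h5 h6
    rw [← h6, h5]
  refine ⟨fun a b => ext Gᶜ fun y => ζ a y / ζ b y, fun a b y ha hb => ⟨(key a b y ha hb).1,
    (key a b y ha hb).2.1, (key a b y ha hb).2.2.self_of_nhds, fun c hc => ?_⟩⟩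
  refine (ext_at hD
    ((key a b y ha hb).1.continuousAt'.mul (key b c y hb hc).1.continuousAt') ?_).symm
  filter_upwards [(key a b y ha hb).2.2, (key b c y hb hc).2.2, hc.1] with y' h1 h2 h3 h4
  rw [Pi.mul_apply, div_eq_iff (mt h3.1 h4), mul_assoc, ← h2, ← h1]

/-- the potentials on `V` -/
theorem core {V : Mf n} {π : V.X → W} {r : ℕ} {G : Fin r → Set V.X} {c : Fin r → ℚ} {v : V.X → ℝ}
    (hπ : HolM n N π) (h0 : ∀ l, 0 < c l)
    (hP : ∀ y, ∃ (ζ : Fin r → V.X → ℂ) (m : ℕ) (g : Fin m → W → ℂ) (h : V.X → ℝ),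
      (∀ l, LEq n (G l) y (ζ l)) ∧ (∀ i, Hol N (g i) (π y)) ∧ SPshAt n h y ∧
      ∀ᶠ z in 𝓝 y, (∀ l, z ∉ G l) →
        h z = v z + ∑ i, ‖g i (π z)‖ ^ 2 - 2 * ∑ l, (c l : ℝ) * Real.log ‖ζ l z‖)
    {ι : Type} {U : ι → Set W} {ψ : ι → W → ℝ} (hU : ∀ i, IsOpen (U i)) (hc : ∀ x, ∃ i, x ∈ U i)
    (hψ : ∀ i, ∀ x ∈ U i, PosAt N (ψ i) x)
    (hf : ∀ i j, ∀ x ∈ U i, x ∈ U j → FlatAt N (fun x => ψ i x - ψ j x) x) :
    ∃ (L : Bd V.X) (i : L.ι → ι) (k : ℕ) (u : L.ι → V.X → ℝ), IsLB n L ∧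
      (∀ a, ∀ z ∈ L.U a, π z ∈ U (i a) ∧ PosAt n (u a) z) ∧ ∀ a b, ∀ z ∈ L.U a, z ∈ L.U b →
        FlatAt n (fun x => u a x - u b x) z ∧
        u a z - u b z = k * (ψ (i a) (π z) - ψ (i b) (π z)) + Real.log (‖L.g a b z‖ ^ 2) := by
  obtain ⟨q, hq, m, hm⟩ := exists_q c h0
  choose ζ d g h a1 a2 a3 a4 using hP
  choose i hi using fun y => hc (π y)
  choose k₀ hk using fun y => loc hπ (a3 y) (mem_of_superset ((hU _).mem_nhds (hi y)) (hψ (i y)))
    (a2 y) (q := q) (Nat.cast_pos.2 hq)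
  choose O hz hO hy using fun y => eventually_nhds_iff.1 ((hk y).and ((a4 y).and
    ((eventually_all.2 fun l => (a1 y l).near).and
      (hπ.continuous.continuousAt.eventually ((hU _).mem_nhds (hi y))))))
  obtain ⟨T, hT⟩ := isCompact_univ.elim_finite_subcover O hO fun y _ => mem_iUnion.2 ⟨y, hy y⟩
  have hG : ∀ l x, ∃ ζ, LEq n (G l) x ζ := fun l x => ⟨_, a1 x l⟩
  choose t ht using fun l => quo (hG l) fun y => ζ y l
  have ht' := fun l a b z (ha : z ∈ O a) (hb : z ∈ O b) =>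
    ht l a b z ((hz a z ha).2.2.1 l) ((hz b z hb).2.2.1 l)
  set k := T.sup k₀
  let F : T → T → V.X → ℂ := fun a b z => ∏ l, (t l a b z)⁻¹ ^ m l
  let u : T → V.X → ℝ := fun a x => k * ψ (i a) (π x) + q * (h a x - ∑ j, ‖g a j (π x)‖ ^ 2)
  have hu : ∀ a : T, ∀ z ∈ O a, SPshAt n (u a) z := fun a z h =>
    (hz a z h).1 k (Finset.le_sup a.2)
  have g1 : ∀ (a b : T) z, z ∈ O a → z ∈ O b → Hol n (F a b) z := fun a b z ha hb =>
    hol_prod _ fun l _ => hol_pow (hol_inv (ht' l a b z ha hb).1 (ht' l a b z ha hb).2.1) _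
  have g2 : ∀ (a b : T) z, z ∈ O a → z ∈ O b → F a b z ≠ 0 := fun a b z ha hb =>
    Finset.prod_ne_zero_iff.2 fun l _ => pow_ne_zero _ (inv_ne_zero (ht' l a b z ha hb).2.1)
  have g3 : ∀ (a b : T) z, z ∈ O a → z ∈ O b → (∀ l, z ∉ G l) → u a z - u b z =
      k * (ψ (i a) (π z) - ψ (i b) (π z)) + Real.log (‖F a b z‖ ^ 2) := fun a b z ha hb hE => by
    have h1 : ∀ l, t l a b z ≠ 0 := fun l => (ht' l a b z ha hb).2.1
    have h2 : ∀ l, Real.log ‖ζ a l z‖ = Real.log ‖t l a b z‖ + Real.log ‖ζ b l z‖ := fun l => by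
      rw [(ht' l a b z ha hb).2.2.1, norm_mul, Real.log_mul (norm_ne_zero_iff.2 (h1 l))
        (norm_ne_zero_iff.2 (mt ((hz b z hb).2.2.1 l).mem.1 (hE l)))]
    simp only [u, F]
    rw [(hz a z ha).2.1 hE, (hz b z hb).2.1 hE, Real.log_pow, norm_prod,
      Real.log_prod fun l _ => norm_ne_zero_iff.2 (pow_ne_zero _ (inv_ne_zero (h1 l)))]
    simp only [h2, hm, norm_pow, norm_inv, Real.log_pow, Real.log_inv, mul_add, mul_neg,
      Finset.sum_add_distrib, Finset.sum_neg_distrib, mul_assoc, ← Finset.mul_sum]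
    push_cast
    ring
  have f1 := fun (a b : T) z (ha : z ∈ O a) (hb : z ∈ O b) =>
    flat_comp hπ (hf (i a) (i b) (π z) (hz a z ha).2.2.2 (hz b z hb).2.2.2)
  have f2 : ∀ (a b : T) z, z ∈ O a → z ∈ O b →
      FlatAt n (fun x => Real.log (‖F a b x‖ ^ 2)) z := fun a b z ha hb =>
    flat_of (g1 a b z ha hb) (g2 a b z ha hb) (.of_forall fun _ => rfl)
  have hD : Dense (⋂ l, (G l)ᶜ) := dense_iInter_of_isOpen
    (fun l => (isClosed_of_leq (hG l)).isOpen_compl) fun l => dense_compl (hG l)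
  have g4 : ∀ (a b : T) z, z ∈ O a → z ∈ O b → u a z - u b z =
      k * (ψ (i a) (π z) - ψ (i b) (π z)) + Real.log (‖F a b z‖ ^ 2) := fun a b z ha hb => by
    refine tendsto_nhds_unique_of_frequently_eq ((sp_cont (hu a z ha)).sub (sp_cont (hu b z hb)))
      ((continuousAt_const.mul (flat_cont (f1 a b z ha hb))).add (flat_cont (f2 a b z ha hb)))
      (((mem_closure_iff_frequently.1 (hD z)).and_eventually
        (((hO a).inter (hO b)).mem_nhds ⟨ha, hb⟩)).mono fun w hw => ?_)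
    exact g3 a b w hw.2.1 hw.2.2 (mem_iInter.1 hw.1)
  have g5 : ∀ (a b : T), ∀ z ∈ O a, z ∈ O b → FlatAt n (fun x => u a x - u b x) z :=
    fun a b z ha hb => flat_comb k (f1 a b z ha hb) (f2 a b z ha hb) (by
      filter_upwards [(hO a).mem_nhds ha, (hO b).mem_nhds hb] with w h1 h2 using g4 a b w h1 h2)
  have hcov : univ ⊆ ⋃ a : T, O a := fun y h => by
    obtain ⟨a, h1, h2⟩ := mem_iUnion₂.1 (hT h)
    exact mem_iUnion.2 ⟨⟨a, h1⟩, h2⟩
  obtain ⟨γ, O', -, o2, o3⟩ := rb n V.X T (fun a => O a) u univ isCompact_univ (fun a => hO a)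
    hcov hu g5
  refine ⟨⟨T, fun a => O a, F⟩, fun a => i a, k, fun a x => u a x + γ x, ⟨fun a => hO a,
    fun x => mem_iUnion.1 (hcov (mem_univ x)), fun a b e z he ha hb =>
      (g1 a b z ha hb e he).contDiffAt, g2, fun a b d z ha hb hd => ?_⟩, fun a z ha =>
    ⟨(hz a z ha).2.2.2, o3 a z (o2 (mem_univ z)) ha⟩, fun a b z ha hb => ?_⟩
  · simp only [F]
    rw [← Finset.prod_mul_distrib]
    refine Finset.prod_congr rfl fun l _ => ?_
    rw [← mul_pow, ← mul_inv, (ht' l a b z ha hb).2.2.2 d ((hz d z hd).2.2.1 l)]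
  · simp only [add_sub_add_right_eq_sub]
    exact ⟨g5 a b z ha hb, g4 a b z ha hb⟩

end Kahr

open Kahr in
/-- **KAHR** -/
theorem kahr : KAHR := by
  intro n N V M π r G c v hπ h0 hP
  constructor
  · rintro ⟨w, hw⟩
    choose ψ hψ using pots hw
    choose U h1 h2 h3 using fun x => eventually_nhds_iff.1 (hψ x)
    obtain ⟨L, i, k, u, a1, a2, a3⟩ := core hπ h0 hP h2 (fun x => ⟨x, h3 x⟩) (ψ := ψ)
      (fun i x hx e he => ⟨(h1 i x hx e he).1, (h1 i x hx e he).2 ▸ hw.posDef e x he⟩)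
      fun i j x hi hj e he => ⟨(h1 i x hi e he).1.sub (h1 j x hj e he).1, by
        rw [cHess_sub ((h1 i x hi e he).1.of_le two_le_inf) ((h1 j x hj e he).1.of_le two_le_inf),
          (h1 i x hi e he).2, (h1 j x hj e he).2, sub_self]⟩
    obtain ⟨χ, hχ, -⟩ := kah n V.X L.ι L.U u a1.isOpen a1.cover (fun a z hz => (a2 a z hz).2)
      fun a b z ha hb => (a3 a b z ha hb).1
    exact ⟨χ, hχ⟩
  · rintro ⟨A, hA, ψ, h1, h2⟩
    have hg : ∀ i j x, x ∈ A.U i → x ∈ A.U j → Hol N (A.g i j) x := fun i j x hi hj e he =>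
      (hA.holo i j e x he hi hj).analyticAt
    obtain ⟨L, i, k, u, a1, a2, a3⟩ := core hπ h0 hP hA.isOpen hA.cover (ψ := ψ)
      (fun i x hx e he => ⟨h1.smooth i e x he hx, h2 i e x he hx⟩)
      fun i j x hi hj => flat_of (hg i j x hi hj) (hA.ne_zero i j x hi hj) (by
        filter_upwards [(hA.isOpen i).mem_nhds hi, (hA.isOpen j).mem_nhds hj] with w b c
        rw [h1.change i j w b c, add_sub_cancel_left])
    refine ⟨⟨L.ι, L.U, fun a b z => A.g (i a) (i b) (π z) ^ k * L.g a b z⟩, ⟨a1.isOpen, a1.cover,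
      fun a b e z he ha hb => ((hol_pow (hol_comp hπ (hg _ _ _ (a2 a z ha).1 (a2 b z hb).1)) k e
        he).contDiffAt).mul (a1.holo a b e z he ha hb), fun a b z ha hb => mul_ne_zero
        (pow_ne_zero _ (hA.ne_zero _ _ _ (a2 a z ha).1 (a2 b z hb).1)) (a1.ne_zero a b z ha hb),
      fun a b d z ha hb hd => ?_⟩, u, ⟨fun a e z he ha => ((a2 a z ha).2 e he).1,
      fun a b z ha hb => ?_⟩, fun a e z he ha => ((a2 a z ha).2 e he).2⟩
    · dsimp only
      rw [mul_mul_mul_comm, ← mul_pow, a1.cocycle a b d z ha hb hd,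
        hA.cocycle _ _ _ _ (a2 a z ha).1 (a2 b z hb).1 (a2 d z hd).1]
    · have b1 := (a3 a b z ha hb).2
      have b2 := norm_ne_zero_iff.2 (hA.ne_zero _ _ _ (a2 a z ha).1 (a2 b z hb).1)
      have b3 := norm_ne_zero_iff.2 (a1.ne_zero a b z ha hb)
      rw [h1.change _ _ _ (a2 a z ha).1 (a2 b z hb).1, add_sub_cancel_left] at b1
      dsimp only
      rw [norm_mul, mul_pow, norm_pow, ← pow_mul, mul_comm k, pow_mul,
        Real.log_mul (pow_ne_zero _ (pow_ne_zero _ b2)) (pow_ne_zero _ b3), Real.log_pow]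
      linarith

end Vale.Agent.P281Z.Rs
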