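import Vale.Agent.P281Z.Rs.Defs
import Vale.Agent.P277Z.Lo.CC
import Vale.Agent.P277Z.Slc.Flat

/-!
# P281, block RES: the case of dimension zero
-/

set_option linter.all false

open scoped Manifold ContDiff Topology ComplexOrder
open Set Filter
open Vale.Agent.P272.K (Cm Chart At IsKahler)
open Vale.Agent.P277Z (Hol)
open Vale.Agent.P277Z.Slc (at_chartAt tendsto_symm)

noncomputable section

namespace Vale.Agent.P281Z.Rs

namespace Zr

theorem mem_Z {n : ℕ} {X : Type} [TopologicalSpace X] [ChartedSpace (Cm n) X] (I : Idl n X)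
    {γ : I.Γ} {x : X} (hx : x ∈ I.U γ) : x ∈ I.Z ↔ ∀ i, I.g γ i x = 0 := by
  refine ⟨fun h => h γ hx, fun h γ' hx' i => ?_⟩
  obtain ⟨C, -, H⟩ := I.cpb γ γ' x hx hx'
  have h1 := H.self_of_nhds.2
  simp only [h, norm_zero, Finset.sum_const_zero, mul_zero] at h1
  exact norm_le_zero_iff.1 ((Finset.single_le_sum (f := fun i => ‖I.g γ' i x‖)
    (fun _ _ => norm_nonneg _) (Finset.mem_univ i)).trans h1)

variable {N : ℕ} {M : Mf N} {A : Set M.X}

theorem disc {S : Set M.X} (h : SubM N 0 S) {x : M.X} (hx : x ∈ S) :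
    ∀ᶠ y in 𝓝 x, y ∈ S → y = x := by
  obtain ⟨c, f, h1, h2, h3⟩ := h x hx
  obtain ⟨γ, π, k1, -, -, -, k2, -⟩ := h2.param (h3.self_of_nhds.1 hx) (d := 0)
    (by simpa using h1) (at_chartAt x)
  filter_upwards [h3, k2] with y e1 e2 e3
  rw [← e2 (e1.1 e3), Subsingleton.elim (π y) (π x), k1]

theorem fin (I : Idl N M.X) (hA : An N A) (h : SubM N 0 (A \ I.Z)) : (A \ I.Z).Finite := by
  have key : ∀ x : M.X, ∃ T : Set M.X, T.Finite ∧ ∀ᶠ y in 𝓝 x, y ∈ A \ I.Z → y ∈ T := by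
    intro x
    obtain ⟨k, f, h1, h2⟩ := hA x
    obtain ⟨γ, hγ⟩ := I.cover x
    have he := at_chartAt (n := N) x
    set e := chartAt (Cm N) x
    have h3 : ∀ᶠ y in 𝓝 x, y ∈ e.source ∧ y ∈ I.U γ ∧ (y ∈ A ↔ ∀ i, f i y = 0) :=
      (e.open_source.eventually_mem he.2).and (((I.isOpen γ).eventually_mem hγ).and h2)
    have h4 := (e.eventually_right_inverse' he.2).and ((tendsto_symm he).eventually h3)
    choose T hT hT' using fun j => P277Z.Lo.cc (Cm N) (Fin k) (e x) (fun i z => f i (e.symm z))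
      (fun z => I.g γ j (e.symm z)) (fun i => h1 i e he) (I.hol γ j x hγ e he) _ h4.eventually_nhds
    refine ⟨e.symm '' ⋃ j, T j, (finite_iUnion hT).image _, ?_⟩
    filter_upwards [h3, (e.continuousAt he.2).eventually (eventually_all.2 hT')] with y e1 e2 e3
    obtain ⟨j, hj⟩ := not_forall.1 (mt (mem_Z I e1.2.1).2 e3.2)
    have e4 := e.left_inv e1.1
    refine (e2 j {e y} (fun z hz z1 z2 => ?_) (by simpa only [e4] using e1.2.2.1 e3.1)
      (by simpa only [e4] using hj) rfl).elim fun p hp =>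
        ⟨p, mem_iUnion.2 ⟨j, hp.1⟩, (congrArg e.symm hp.2.2.2.2).trans e4⟩
    have k0 : ∀ {w}, e (e.symm w) = w ∧ e.symm w ∈ e.source ∧ e.symm w ∈ I.U γ ∧
        (e.symm w ∈ A ↔ ∀ i, f i (e.symm w) = 0) → (∀ i, f i (e.symm w) = 0) →
        I.g γ j (e.symm w) ≠ 0 → e.symm w ∈ A \ I.Z := fun k a b =>
      ⟨k.2.2.2.2 a, fun c => b (c γ k.2.2.1 j)⟩
    have k1 := hz.self_of_nhds
    have k2 : ContinuousAt e.symm z := e.continuousAt_symm (k1.1 ▸ e.map_source k1.2.1)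
    filter_upwards [hz, k2.eventually (disc h (k0 k1 z1 z2))] with w a b c d
    rw [← a.1, b (k0 a c d), k1.1]
  choose T h1 h2 using key
  obtain ⟨S, -, hS⟩ := isCompact_univ.elim_nhds_subcover _ fun x _ => h2 x
  refine (S.finite_toSet.biUnion fun x _ => h1 x).subset fun y hy => ?_
  obtain ⟨x, hx, k⟩ := mem_iUnion₂.1 (hS (mem_univ y))
  exact mem_biUnion hx (k hy)

/-- the chart at a point of a discrete space -/
def pt {X : Type} [TopologicalSpace X] [DiscreteTopology X] (x : X) : Chart 0 X where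
  toFun _ := 0
  invFun _ := x
  source := {x}
  target := univ
  map_source' _ _ := mem_univ _
  map_target' _ _ := rfl
  left_inv' _ h := h.symm
  right_inv' _ _ := Subsingleton.elim _ _
  open_source := isOpen_discrete _
  open_target := isOpen_univ
  continuousOn_toFun := continuousOn_const
  continuousOn_invFun := continuousOn_const

/-- a finite set as a manifold of dimension zero -/
def mf (X : Type) [Finite X] : Mf 0 :=
  letI : TopologicalSpace X := ⊥
  haveI : DiscreteTopology X := ⟨rfl⟩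
  letI : ChartedSpace (Cm 0) X := ⟨range pt, pt, fun _ => rfl, fun x => ⟨x, rfl⟩⟩
  haveI : IsManifold 𝓘(ℂ, Cm 0) ω X := isManifold_of_contDiffOn _ _ _ fun _ _ _ _ =>
    contDiffOn_const.congr (f := fun _ => (0 : Cm 0)) fun _ _ => Subsingleton.elim _ _
  ⟨X⟩

theorem kah (V : Mf 0) : V.Kah :=
  ⟨fun _ _ => 1, ⟨fun _ _ _ i => i.elim0, fun _ _ _ => Matrix.PosDef.one,
    fun _ _ _ _ _ => Subsingleton.elim _ _⟩, fun _ _ _ i => i.elim0⟩

theorem prj (V : Mf 0) : V.Prj :=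
  ⟨P277Z.Slc.triv V.X, P277Z.Slc.isLB_triv, fun _ _ => 0,
    ⟨fun _ _ _ _ _ => contDiffAt_const, fun _ _ _ _ _ => by simp [P277Z.Slc.triv]⟩,
    fun _ _ _ _ _ => by
      rw [Subsingleton.elim (P272.K.cHess _ _) 1]; exact Matrix.PosDef.one⟩

end Zr

open Zr in
/-- **RES** in dimension zero -/
theorem res0 (N : ℕ) (M : Mf N) (A : Set M.X) (I : Idl N M.X) (hA : An N A)
    (h : SubM N 0 (A \ I.Z)) : Nonempty (Rz M 0 A I) := by
  haveI := (fin I hA h).to_subtype
  haveI : DiscreteTopology (mf ↥(A \ I.Z)).X := ⟨rfl⟩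
  refine ⟨⟨mf ↥(A \ I.Z), Subtype.val, ⟨fun x => ?_, fun x => x.2.1, fun x => subset_closure x.2.2,
    fun y h1 h2 => ⟨⟨y, h1, h2⟩, rfl, fun _ k => Subtype.ext k⟩,
    fun _ _ _ _ _ _ _ _ _ => Subsingleton.elim _ _⟩, 0, Fin.elim0, fun x => ⟨Fin.elim0,
      fun l => l.elim0, fun l => l.1.elim0, fun _ _ => ?_⟩, fun l => l.elim0,
    fun y => ⟨fun k => absurd k y.2.2, fun ⟨l, _⟩ => l.elim0⟩, Fin.elim0, fun l => l.elim0,
    fun y γ hγ ζ _ => ⟨fun k _ => I.g γ k y.1, fun _ _ _ => analyticAt_const, ?_, ?_⟩,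
    fun _ => kah _, fun _ => prj _⟩⟩
  · exact (contMDiffAt_const (c := x.1)).congr_of_eventuallyEq (by
      rw [nhds_discrete]; exact eventually_pure.2 rfl)
  · haveI : IsEmpty {l : Fin 0 // x ∈ (Fin.elim0 : Fin 0 → Set _) l} := ⟨fun l => l.1.elim0⟩
    exact linearIndependent_empty_type
  · exact not_forall.1 (mt (mem_Z I hγ).2 y.2.2)
  · rw [nhds_discrete]
    exact eventually_pure.2 fun k => by simp

end Vale.Agent.P281Z.Rs
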