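import Vale.Agent.P281Z.Nt.Hyp
import Vale.Agent.P281Z.Mf.Mod
import Vale.Agent.P277Z.Hl.Prin
import Vale.Agent.P277Z.Hir.OutL

/-!
# P281, block RES: the input and the output of the resolution algorithm
-/

open scoped Manifold ContDiff Topology
open Set Filter
open Vale.Agent.P272.K (Cm Chart At)
open Vale.Agent.P277 (IsModel)
open Vale.Agent.P277Z (Hol at_chart)
open Vale.Agent.P277Z.Slc (LEq Snc Ind dd)
open Vale.Agent.P277Z.Hir (Cpb Out)
open Vale.Agent.P277Z.Pos (SPshAt nsq)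

set_option linter.unusedSectionVars false

noncomputable section

namespace Vale.Agent.P281Z

section

variable {n p : ℕ} {X Y : Type} [TopologicalSpace X] [ChartedSpace (Cm n) X] [TopologicalSpace Y]
  [ChartedSpace (Cm p) Y]

theorem Idl.an (I : Idl n X) : An n I.Z := fun x =>
  let ⟨γ, h⟩ := I.cover x
  ⟨_, I.g γ, fun k => I.hol γ k x h,
    mem_of_superset ((I.isOpen γ).mem_nhds h) fun _ => Idl.mem_Z⟩

variable [IsManifold 𝓘(ℂ, Cm n) ω X] [IsManifold 𝓘(ℂ, Cm p) ω Y]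

/-- the pull back of an ideal -/
def Idl.pull (I : Idl p Y) {f : X → Y} (hf : HolM n p f) : Idl n X where
  Γ := I.Γ
  U γ := f ⁻¹' I.U γ
  k := I.k
  g γ i x := I.g γ i (f x)
  isOpen γ := (I.isOpen γ).preimage hf.cont
  cover x := I.cover (f x)
  hol γ i _ hx := hf.hol (I.hol γ i _ hx)
  cpb γ γ' _ h h' :=
    let ⟨C, h1, h2⟩ := I.cpb γ γ' _ h h'
    ⟨C, h1, hf.cont.continuousAt.eventually h2⟩

theorem Idl.pull_Z (I : Idl p Y) {f : X → Y} (hf : HolM n p f) : (I.pull hf).Z = f ⁻¹' I.Z := rfl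

end

namespace Rs.Ou

open Cmp

section lab

variable {n : ℕ} {Y κ : Type} [TopologicalSpace Y] [ChartedSpace (Cm n) Y]
  [IsManifold 𝓘(ℂ, Cm n) ω Y] {G : κ → Set Y} {y : Y}

theorem leq_lab {D : Set Y} {e : Chart n Y} (he : At e y) {o : Option (Fin n)}
    (h : ∀ z ∈ e.source, z ∈ D ↔ ∃ i, o = some i ∧ e z i = 0) :
    LEq n D y fun z => o.elim 1 fun i => e z i := by
  refine ⟨mem_of_superset (e.open_source.mem_nhds he.2) fun z hz => Iff.trans ?_ (h z hz).symm,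
    fun c hc => ?_⟩
  · cases o <;> simp
  · rcases o with _ | i
    · exact ⟨analyticAt_const, fun k => (one_ne_zero k).elim⟩
    · exact ⟨hol_chart he i c hc, fun _ => ((ind_chart he).2 c hc).ne_zero i⟩

theorem snc_lab {lab : Y → κ → Option (Fin n)}
    (h1 : ∀ y l l' i, lab y l = some i → lab y l' = some i → l = l')
    (h2 : ∀ y l, ∀ z ∈ (chartAt (Cm n) y).source,
      z ∈ G l ↔ ∃ i, lab y l = some i ∧ chartAt (Cm n) y z i = 0) : Snc n G := fun y => by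
  refine ⟨_, fun l => leq_lab (at_chart y) (h2 y l), ?_⟩
  choose i hi _ using fun l : {l // y ∈ G l} => (h2 y l y (mem_chart_source _ y)).1 l.2
  have := (ind_chart (at_chart (n := n) y)).comp i fun l l' e =>
    Subtype.ext (h1 y l l' _ (hi l) (e ▸ hi l'))
  refine (congrArg (Ind n · y) (funext fun l => funext fun z => ?_)).mp this
  rw [hi l]
  rfl

variable [T2Space Y] [SecondCountableTopology Y] [Fintype κ]

/-- a family which is comparable with a monomial in the coordinates -/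
theorem mon_of {ι : Type} [Fintype ι] {f : ι → Y → ℂ} {ζ : κ → Y → ℂ} {e : Fin n → ℕ}
    (hG : Snc n G) (hζ : ∀ l, LEq n (G l) y (ζ l)) (hf : ∀ k, Hol n (f k) y)
    (h : Cpb (𝓝 y) (fun z => ∑ k, ‖f k z‖) fun z => ‖∏ i, chartAt (Cm n) y z i ^ e i‖)
    (h0 : ∀ᶠ z in 𝓝 y, z ∈ off G → ∃ k, f k z ≠ 0) : ∃ a, Mon n f ζ a y := by
  classical
  have he := at_chart (n := n) y
  obtain ⟨C, h1, h2⟩ := h
  obtain ⟨k₀, hk⟩ := P277Z.Hl.prin n n ι (fun k z => f k ((chartAt (Cm n) y).symm z))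
    (chartAt (Cm n) y y) some (fun i => e i) (fun l l' i a b => by simp_all)
    (fun _ => Nat.cast_nonneg _) (fun k => hf k _ he) ⟨C, h1, by
      filter_upwards [at_ev he h2, P277Z.At.right he] with z p1 p2
      rw [p2] at p1
      simpa only [Option.elim, Real.rpow_natCast, norm_prod, norm_pow] using p1⟩
  choose c c1 c2 using hk
  have c3 : ∀ᶠ z in 𝓝 y, ∀ k, f k z = c k (chartAt (Cm n) y z) * f k₀ z := by
    filter_upwards [((chartAt (Cm n) y).continuousAt he.2).eventually (eventually_all.2 c2),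
      chart_source_mem_nhds (Cm n) y] with z a b
    simpa only [(chartAt (Cm n) y).left_inv b] using a
  obtain ⟨a, u, u1, u2, u3⟩ := Nt.Hp.mon hG hζ (hf k₀) (by
    filter_upwards [c3, h0] with z p1 p2 p3 p4
    obtain ⟨k, hk⟩ := p2 p3
    exact hk (by rw [p1 k, p4, mul_zero]))
  refine ⟨a, fun k z => if k = k₀ then u z else c k (chartAt (Cm n) y z) * u z, fun k => ?_,
    ⟨k₀, by simpa using u2⟩, ?_⟩
  · by_cases hk : k = k₀
    · simpa only [hk, if_true] using u1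
    · simpa only [hk, if_false] using hol_mul (P277Z.hol_comp he (c1 k)) u1
  · filter_upwards [c3, u3] with z p1 p2 k
    split_ifs with hk
    · rw [hk, p2]
    · rw [p1 k, p2, mul_assoc]

/-- global exponents -/
theorem glob {J : Idl n Y} (hG : Snc n G) (hc : ∀ l, IsConnected (G l))
    (hM : ∀ y γ, y ∈ J.U γ → ∀ ζ : κ → Y → ℂ, (∀ l, LEq n (G l) y (ζ l)) →
      ∃ e, Mon n (J.g γ) ζ e y) : ∃ e, ∀ y γ, y ∈ J.U γ → ∀ ζ : κ → Y → ℂ,
      (∀ l, LEq n (G l) y (ζ l)) → Mon n (J.g γ) ζ e y := by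
  classical
  choose ζ hζ hI using hG
  have h0 : ∀ y (l : {l // y ∈ G l}), ζ y l y = 0 := fun y l => (hζ y l).mem.2 l.2
  set Q : Y → (κ → ℕ) → Prop := fun y e => ∃ γ ξ, y ∈ J.U γ ∧ (∀ l, LEq n (G l) y (ξ l)) ∧
    Mon n (J.g γ) ξ e y with hQ
  have red : ∀ {y γ} {ξ : κ → Y → ℂ} {e : κ → ℕ}, (∀ l, LEq n (G l) y (ξ l)) →
      Mon n (J.g γ) ξ e y → Mon n (J.g γ) (fun l : {l // y ∈ G l} => ζ y l) (fun l => e l) y :=
    fun {y γ ξ e} h1 h2 => mon_chg h2
      ((Eqv.prod _ fun l _ => (eqv_leq (h1 l) (hζ y l)).pow _).trans (eqv_sub (hζ y) e))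
  have un : ∀ {y e e' l}, y ∈ G l → Q y e → Q y e' → e l = e' l := by
    rintro y e e' l hy ⟨γ, ξ, a1, a2, a3⟩ ⟨γ', ξ', b1, b2, b3⟩
    obtain ⟨C, hC, H⟩ := J.cpb γ γ' y a1 b1
    exact le_antisymm
      (mon_le (hI y) (h0 y) (red b2 b3) (red a2 a3) hC (H.mono fun _ h => h.2) ⟨l, hy⟩)
      (mon_le (hI y) (h0 y) (red a2 a3) (red b2 b3) hC (H.mono fun _ h => h.1) ⟨l, hy⟩)
  have ev : ∀ {y e}, Q y e → ∀ᶠ z in 𝓝 y, Q z e := by
    rintro y e ⟨γ, ξ, a1, a2, a3⟩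
    filter_upwards [(J.isOpen γ).mem_nhds a1, eventually_all.2 fun l => (a2 l).near, mon_near a3]
      with z b1 b2 b3
    exact ⟨γ, ξ, b1, b2, b3⟩
  have ex : ∀ y, ∃ e, Q y e := fun y =>
    let ⟨γ, hγ⟩ := J.cover y
    let ⟨e, h⟩ := hM y γ hγ _ (hζ y)
    ⟨e, γ, _, hγ, hζ y, h⟩
  choose E hE using ex
  choose y₀ hy₀ using fun k => (hc k).nonempty
  have cst : ∀ k, ∀ y ∈ G k, E y k = E (y₀ k) k := fun k y hy =>
    (hc k).isPreconnected.constant (f := fun y => E y k) (fun z hz =>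
      continuousWithinAt_const.congr_of_eventuallyEq (by
        filter_upwards [nhdsWithin_le_nhds (ev (hE z)), self_mem_nhdsWithin] with w h1 h2
        exact un h2 (hE w) h1) rfl) hy (hy₀ k)
  refine ⟨fun k => E (y₀ k) k, fun y γ hγ ξ hξ => ?_⟩
  obtain ⟨e, h⟩ := hM y γ hγ ξ hξ
  refine mon_chg (red hξ h) (Eqv.trans (Eqv.prod _ fun k _ => ?_) (eqv_sub hξ _).symm)
  rw [← cst k y k.2, un k.2 (hE y) ⟨γ, ξ, hγ, hξ, h⟩]
  exact (eqv_leq (hζ y _) (hξ k)).pow _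

/-- the connected components -/
theorem cmps [CompactSpace Y] (hG : Snc n G) : ∃ (r : ℕ) (p : Fin r → κ) (G' : Fin r → Set Y),
    Snc n G' ∧ (∀ k, IsConnected (G' k)) ∧ (∀ k, G' k ⊆ G (p k)) ∧
      (∀ l, ∀ y ∈ G l, ∃ k, p k = l ∧ y ∈ G' k) ∧
      ∀ k, ∀ y ∈ G' k, ∀ᶠ z in 𝓝 y, z ∈ G (p k) → z ∈ G' k := by
  classical
  let σ := (Fintype.equivFin κ).symm
  obtain ⟨r, p, G', c1, c2, c3, c4, c5⟩ := Cmp.comps (G := fun l => G (σ l)) fun l y =>
    (hG y).elim fun ζ h => ⟨ζ _, h.1 _⟩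
  refine ⟨r, fun k => σ (p k), G', fun y => ?_, c1, c2, fun l y hy => ?_, c5⟩
  · obtain ⟨ζ, hζ, hI⟩ := hG y
    refine ⟨fun k => if y ∈ G' k then ζ (σ (p k)) else fun _ => 1, fun k => ?_, ?_⟩
    · beta_reduce
      split_ifs with hy
      · exact leq_congr (hζ _) (.of_forall fun _ => rfl)
          ((c5 k y hy).mono fun z hz => ⟨hz, fun h => c2 k h⟩)
      · refine ⟨?_, fun e he => ⟨analyticAt_const, fun h => (one_ne_zero h).elim⟩⟩
        simp only [one_ne_zero, false_iff]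
        by_cases h1 : y ∈ G (σ (p k))
        · obtain ⟨k', e, h2⟩ := c3 _ y h1
          exact (c5 k' y h2).mono fun z hz h3 =>
            hy (c4 z k k' e.symm h3 (hz (e ▸ c2 k h3)) ▸ h2)
        · exact ((hζ _).not_mem_near h1).mono fun z hz h3 => hz (c2 k h3)
    · have := hI.comp (fun k : {k // y ∈ G' k} => (⟨σ (p k), c2 k k.2⟩ : {l // y ∈ G l}))
        fun k k' e => Subtype.ext (c4 y k k' (σ.injective (congrArg Subtype.val e)) k.2 k'.2)
      refine (congrArg (Ind n · y) (funext fun k => ?_)).mp this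
      exact (if_pos k.2).symm
  · obtain ⟨k, e, h⟩ := c3 (σ.symm l) y (by rwa [σ.apply_symm_apply])
    exact ⟨k, (congrArg σ e).trans (σ.apply_symm_apply l), h⟩

end lab

variable {N n : ℕ} {M : Mf N} {X : Type} [TopologicalSpace X] [T2Space X] [CompactSpace X]
  {j : X → M.X}

/-- the base of the resolution -/
abbrev base (I : Idl N M.X) (hj : Continuous j) : P277Z.Hir.Base where
  X := X
  Hol f x := ∃ g, Hol N g (j x) ∧ ∀ᶠ y in 𝓝 x, f y = g (j y)
  comp := fun x ι _ g G f h1 h2 h3 => by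
    choose a ha hb using h1
    have hc : ∀ᶠ y in 𝓝 x, g y = fun l => a l (j y) :=
      (eventually_all.2 hb).mono fun y h => funext h
    refine ⟨fun y => G fun l => a l y, (AnV.pi (F := fun y l => a l y) ha).cmp
      (hc.self_of_nhds ▸ h2), ?_⟩
    filter_upwards [h3, hc] with y k1 k2
    rw [k1, k2]
  cont := fun f x ⟨g, h1, h2⟩ => (h1.cont.comp hj.continuousAt).congr (h2.mono fun _ => Eq.symm)
  ev := fun f x ⟨g, h1, h2⟩ => by
    filter_upwards [hj.continuousAt.eventually h1.near, h2.eventually_nhds] with y a b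
      using ⟨g, a, b⟩
  Bad := j ⁻¹' I.Z
  closed := I.an.closed.preimage hj
  Γ := I.Γ
  XO γ := j ⁻¹' I.U γ
  isOpen γ := (I.isOpen γ).preimage hj
  cover x := I.cover (j x)
  m := I.k
  f γ k x := I.g γ k (j x)
  hol γ k x hx := ⟨_, I.hol γ k _ hx, .of_forall fun _ => rfl⟩
  zero _ _ := Idl.mem_Z
  cpb γ γ' x h h' :=
    let ⟨C, h1, h2⟩ := I.cpb γ γ' _ h h'
    ⟨C, h1, hj.continuousAt.eventually h2⟩

theorem model (I : Idl N M.X) (hj : Topology.IsEmbedding j) {E : Type} [NormedAddCommGroup E]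
    [NormedSpace ℂ E] {Θ : OpenPartialHomeomorph M.X E} (hΘ : Co N Θ) {d k : ℕ}
    (P : E →L[ℂ] Cm d) (ι : Cm d →L[ℂ] E) (hP : ∀ z, P (ι z) = z) {h : Fin k → Cm d → ℂ}
    (h1 : ∀ i z, ι z ∈ Θ.target → AnalyticAt ℂ (h i) z)
    (h2 : ∀ y ∈ Θ.source, y ∈ range j ↔ ι (P (Θ y)) = Θ y ∧ ∀ i, h i (P (Θ y)) = 0) :
    IsModel (base I hj.continuous).Hol (j ⁻¹' Θ.source) (ι ⁻¹' Θ.target) h
      fun x => P (Θ (j x)) := by
  have h3 := fun x (hx : j x ∈ Θ.source) => (h2 _ hx).1 (mem_range_self x)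
  have h4 := Θ.open_source.preimage hj.continuous
  refine ⟨h4, Θ.open_target.preimage ι.continuous, h1, Set.ext fun z => ⟨?_, fun ⟨a, b⟩ => ?_⟩,
    ?_, fun x hx f => ⟨fun ⟨g, a, b⟩ => ⟨fun z => g (Θ.symm (ι z)), ?_, ?_⟩, fun ⟨g, a, b⟩ =>
      ⟨fun w => g (P (Θ w)), ((hΘ.an _ hx).cmp (P.analyticAt _)).cmp a, b⟩⟩⟩
  · rintro ⟨x, hx, rfl⟩
    exact ⟨((h3 x hx).1.symm ▸ Θ.map_source hx : ι _ ∈ Θ.target), (h3 x hx).2⟩
  · obtain ⟨x, hx⟩ := (h2 _ (Θ.map_target a)).2 (by rw [Θ.right_inv a, hP]; exact ⟨rfl, b⟩)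
    exact ⟨x, (hx ▸ Θ.map_target a : j x ∈ Θ.source), by simp only [hx, Θ.right_inv a, hP]⟩
  · have k1 : Topology.IsEmbedding fun x : j ⁻¹' Θ.source => (⟨j x, x.2⟩ : Θ.source) :=
      (hj.comp .subtypeVal).codRestrict _ _
    have k2 := Θ.isOpenEmbedding_restrict.isEmbedding.comp k1
    refine .of_comp (P.continuous.comp k2.continuous) ι.continuous ?_
    exact (congrArg Topology.IsEmbedding (funext fun x : j ⁻¹' Θ.source => (h3 x x.2).1)).mpr k2
  · refine AnalyticAt.fun_comp (g := fun v => g (Θ.symm v)) ?_ (ι.analyticAt _)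
    rw [(h3 x hx).1]
    exact hΘ.an_hol (Θ.map_source hx) (by rwa [Θ.left_inv hx])
  · filter_upwards [b, h4.mem_nhds hx] with y c d
    rw [c, Function.comp_apply, (h3 y d).1, Θ.left_inv d]

variable {I : Idl N M.X} {hj : Continuous j} (o : Out (base I hj) n univ)

/-- the manifold -/
def mf : Mf n := { X := o.Y, cpt := ⟨o.proper univ o.sub isCompact_univ⟩ }

theorem hh {y : o.Y} {g : M.X → ℂ} (h : Hol N g (j (o.π y))) : Hol n (fun z => g (j (o.π z))) y :=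
  .of_chart (at_chart y) (o.hol y (fun x => g (j x)) ⟨g, h, .of_forall fun _ => rfl⟩)

theorem hol : HolM n N fun y => j (o.π y) := fun y =>
  HolA.of_hol (hj.comp o.cont).continuousAt (at_chart _) fun a =>
    hh o (g := fun w => chartAt (Cm N) (j (o.π y)) w a) (hol_chart (at_chart _) a)

theorem imm {y : o.Y} (hy : j (o.π y) ∉ I.Z) : Imm n N (fun y => j (o.π y)) y := by
  obtain ⟨σ, a1, a2, a3, a4⟩ := o.sec y hy
  choose a b1 b2 using a4
  have he := at_chart (n := n) y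
  have k : ∀ᶠ z in 𝓝 y, (fun i => a i (j (o.π z))) = chartAt (Cm n) y z := by
    filter_upwards [o.cont.continuousAt.eventually (a3.and (eventually_all.2 b2)),
      o.cont.continuousAt.eventually ((base I hj).closed.isOpen_compl.mem_nhds hy)] with z c d
    exact funext fun i => (c.2 i).symm.trans (by rw [o.one z _ d c.1])
  refine .of_comp (g := fun w => (chartAt (Cm n) y).symm fun i => a i w)
    (holA_symm (F := fun w i => a i w) b1 he.1 ?_) (hol o y) ((imm_id y).cng ?_)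
  · rw [k.self_of_nhds]
    exact mem_chart_target _ y
  · filter_upwards [k, chart_source_mem_nhds (Cm n) y] with z c d
    rw [c, (chartAt (Cm n) y).left_inv d]

theorem pos (y : o.Y) : ∃ (ζ : Fin o.r → o.Y → ℂ) (m : ℕ) (g : Fin m → M.X → ℂ) (h : o.Y → ℝ),
    (∀ l, LEq n (o.G l) y (ζ l)) ∧ (∀ i, Hol N (g i) (j (o.π y))) ∧ SPshAt n h y ∧
    ∀ᶠ z in 𝓝 y, (∀ l, z ∉ o.G l) → h z = o.v z + ∑ i, ‖g i (j (o.π z))‖ ^ 2 -
      2 * ∑ l, (o.c l : ℝ) * Real.log ‖ζ l z‖ := by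
  obtain ⟨m, g, ε, U, h, a1, a2, a3, a4, a5, a6, a7⟩ := o.pos y
  choose a b1 b2 using a1
  have he := at_chart (n := n) y
  refine ⟨_, m, a, fun x => h (chartAt (Cm n) y x), fun l => leq_lab he (o.snc y l), b1,
    ⟨_, he, ε, a2, _, inter_mem (a3.mem_nhds a4) (chart_target_mem_nhds (Cm n) y),
      (a5.mono inter_subset_left).congr fun t ht => by
        simp only [(chartAt (Cm n) y).right_inv ht.2],
      (a6.mono inter_subset_left).congr fun t ht => by
        simp only [(chartAt (Cm n) y).right_inv ht.2, nsq]⟩, ?_⟩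
  filter_upwards [a7, o.cont.continuousAt.eventually (eventually_all.2 b2)] with z c d hz
  rw [c hz]
  simp only [d]
  congr 2
  refine Finset.sum_congr rfl fun l _ => ?_
  cases o.lab y l <;> simp

theorem mon {κ : Type} [Fintype κ] {G : κ → Set o.Y} (hG : Snc n G)
    (h : ∀ y ∈ off G, j (o.π y) ∉ I.Z) (y : o.Y) (γ : I.Γ) (hy : j (o.π y) ∈ I.U γ)
    (ζ : κ → o.Y → ℂ) (hζ : ∀ l, LEq n (G l) y (ζ l)) :
    ∃ e, Mon n (fun k z => I.g γ k (j (o.π z))) ζ e y :=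
  let ⟨_, _, k⟩ := o.prin y γ hy
  mon_of hG hζ (fun k => hh o (I.hol γ k _ hy)) k (mem_of_superset
    ((hj.comp o.cont).continuousAt.eventually ((I.isOpen γ).mem_nhds hy)) fun z a b =>
      not_forall.1 (mt (Idl.mem_Z a).2 (h z b)))

end Rs.Ou

end Vale.Agent.P281Z
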