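import Vale.Agent.P281Z.Defs
import Vale.Agent.P277Z.Hir.MSk
import Vale.Agent.P277Z.Pos.MSpec

/-!
# P281, block RES: resolution of analytic subsets of a compact manifold (definitions, statements)
-/

open scoped Manifold ContDiff Topology
open Set Filter
open Vale.Agent.P272.K (Cm Chart At IsKahler)
open Vale.Agent.P285.H281.FD (Bd IsLB)
open Vale.Agent.P277Z (Hol)
open Vale.Agent.P277Z.Slc (LEq Snc Ind)
open Vale.Agent.P277Z.Hir (Cpb)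

noncomputable section

namespace Vale.Agent.P281Z

/-- there is a positive line bundle -/
def Mf.Prj {n : ℕ} (V : Mf n) : Prop := ∃ L : Bd V.X, IsLB n L ∧ Pos n L

namespace Rs

/-- Near `y` the family `f` is the monomial `∏ ζ l ^ e l` times a family without a common zero. -/
def Mon (n : ℕ) {X : Type} [TopologicalSpace X] [ChartedSpace (Cm n) X] {κ ι : Type} [Fintype κ]
    (f : ι → X → ℂ) (ζ : κ → X → ℂ) (e : κ → ℕ) (y : X) : Prop :=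
  ∃ c : ι → X → ℂ, (∀ k, Hol n (c k) y) ∧ (∃ k, c k y ≠ 0) ∧
    ∀ᶠ z in 𝓝 y, ∀ k, f k z = c k z * ∏ l, ζ l z ^ e l

/-- A resolution `π : V → closure (A \ Z)`, which is an isomorphism outside `Z`; the preimage of
`Z` is a divisor with simple normal crossings, with the components `G l`, and the pull back of the
ideal is `∑ e l • G l`. -/
structure Rz {N : ℕ} (M : Mf N) (n : ℕ) (A : Set M.X) (I : Idl N M.X) where
  V : Mf n
  π : V.X → M.X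
  ovr : Over n N π A I.Z
  r : ℕ
  G : Fin r → Set V.X
  snc : Snc n G
  conn : ∀ l, IsConnected (G l)
  bad : ∀ y, π y ∈ I.Z ↔ ∃ l, y ∈ G l
  e : Fin r → ℕ
  pos : ∀ l, 0 < e l
  prin : ∀ y γ, π y ∈ I.U γ → ∀ ζ : Fin r → V.X → ℂ, (∀ l, LEq n (G l) y (ζ l)) →
    Mon n (fun k z => I.g γ k (π z)) ζ e y
  kah : M.Kah → V.Kah
  prj : M.Prj → V.Prj

/-- **RES** -/
def RES : Prop := ∀ (N n : ℕ) (M : Mf N) (A : Set M.X) (I : Idl N M.X), An N A →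
  SubM N n (A \ I.Z) → Nonempty (Rz M n A I)

/-- **CLO**: the closure of the difference of two analytic sets is analytic -/
def CLO : Prop := ∀ (N : ℕ) (M : Mf N) (A B : Set M.X), An N A → An N B → An N (closure (A \ B))

/-- **IDL**: the ideal of an analytic set -/
def IDL : Prop := ∀ (N : ℕ) (M : Mf N) (B : Set M.X), An N B → ∃ I : Idl N M.X, I.Z = B ∧
  ∀ γ, ∀ x ∈ I.U γ, ∀ g, Hol N g x → (∀ᶠ y in 𝓝 x, y ∈ B → g y = 0) →
    ∃ c : Fin (I.k γ) → M.X → ℂ, (∀ k, Hol N (c k) x) ∧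
      ∀ᶠ y in 𝓝 x, g y = ∑ k, c k y * I.g γ k y

/-- **COMP**: connected components and global exponents -/
def COMP : Prop := ∀ (n : ℕ) (V : Mf n) (J : Idl n V.X) (r : ℕ) (G : Fin r → Set V.X), Snc n G →
  (∀ y, y ∈ J.Z ↔ ∃ l, y ∈ G l) →
  (∀ y γ, y ∈ J.U γ → ∃ (e : Fin r → ℕ) (ζ : Fin r → V.X → ℂ), (∀ l, LEq n (G l) y (ζ l)) ∧
    Mon n (J.g γ) ζ e y) →
  ∃ (r' : ℕ) (G' : Fin r' → Set V.X) (e : Fin r' → ℕ), Snc n G' ∧ (∀ l, IsConnected (G' l)) ∧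
    (∀ y, y ∈ J.Z ↔ ∃ l, y ∈ G' l) ∧ (∀ l, 0 < e l) ∧
    ∀ y γ, y ∈ J.U γ → ∀ ζ : Fin r' → V.X → ℂ, (∀ l, LEq n (G' l) y (ζ l)) → Mon n (J.g γ) ζ e y

/-- **KAHR**: a manifold which is projective over a Kähler manifold is Kähler -/
def KAHR : Prop := ∀ (n N : ℕ) (V : Mf n) (M : Mf N) (π : V.X → M.X) (r : ℕ)
  (G : Fin r → Set V.X) (c : Fin r → ℚ) (v : V.X → ℝ), HolM n N π → (∀ l, 0 < c l) →
  (∀ y, ∃ (ζ : Fin r → V.X → ℂ) (m : ℕ) (g : Fin m → M.X → ℂ) (h : V.X → ℝ),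
    (∀ l, LEq n (G l) y (ζ l)) ∧ (∀ i, Hol N (g i) (π y)) ∧ P277Z.Pos.SPshAt n h y ∧
    ∀ᶠ z in 𝓝 y, (∀ l, z ∉ G l) →
      h z = v z + ∑ i, ‖g i (π z)‖ ^ 2 - 2 * ∑ l, (c l : ℝ) * Real.log ‖ζ l z‖) →
  (M.Kah → V.Kah) ∧ (M.Prj → V.Prj)

end Rs

end Vale.Agent.P281Z
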