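import Vale.Agent.P281Z.Rs.Out
import Vale.Agent.P281Z.Rs.Kahr
import Vale.Agent.P281Z.Rs.Zero

/-!
# P281, block RES: resolution of analytic subsets of a compact manifold
-/

open scoped Manifold ContDiff Topology
open Set Filter
open Vale.Agent.P272.K (Cm Chart At)
open Vale.Agent.P277Z (Hol at_chart)
open Vale.Agent.P277Z.Slc (LEq Snc Ind dd)
open Vale.Agent.P277Z.Hir (Cpb Out)

noncomputable section

namespace Vale.Agent.P281Z.Rs

namespace Ou

variable {N n : ℕ} {M : Mf N} {A : Set M.X}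

theorem ind_empty (x : M.X) : Ind N (fun (a : Empty) (_ : M.X) => (a.elim : ℂ)) x :=
  ⟨fun a => a.elim, fun _ _ => linearIndependent_empty_type⟩

theorem sp (I : Idl N M.X) (hA : An N A) (hS : SubM N n (A \ I.Z))
    [CompactSpace (closure (A \ I.Z))] (hC : An N (closure (A \ I.Z))) :
    (base I (continuous_subtype_val (p := (· ∈ closure (A \ I.Z))))).Sp n := by
  have hj := Topology.IsEmbedding.subtypeVal (p := (· ∈ closure (A \ I.Z)))
  have h0 : closure (A \ I.Z) ⊆ A := closure_minimal sdiff_subset hA.closed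
  refine ⟨fun x => ?_, fun x hx => ?_, Subtype.dense_iff.2 (closure_mono fun y hy =>
    ⟨⟨y, subset_closure hy⟩, hy.2, rfl⟩)⟩
  · obtain ⟨k, g, h1, h2⟩ := hC x
    obtain ⟨Θ, -, a1, a2, a3, -⟩ := Nt.Hp.exists_crd (ind_empty x.1) (fun a => a.elim)
      (h2.and (eventually_all.2 fun i => (h1 i).near))
    exact ⟨N, k, _, _, fun i z => g i (Θ.symm z), _, a2, model I hj a1 (.id ℂ _) (.id ℂ _)
      (fun _ => rfl) (fun i z hz => a1.an_hol hz ((a3 (Θ.map_target hz)).2 i)) fun y hy => by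
        simpa [Θ.left_inv hy] using (a3 hy).1⟩
  · obtain ⟨c, h, h1, h2, h3⟩ := hS x ⟨h0 x.2, hx⟩
    obtain ⟨Θ, a1, a2, a3, a4⟩ := exists_co h2 (d := n) (by simpa [add_comm] using h1)
      (h3.and (I.an.closed.isOpen_compl.mem_nhds hx))
    refine ⟨_, _, Fin.elim0, _, a2, model I hj a1 (.snd ℂ _ _) (.inr ℂ _ _) (fun _ => rfl)
      (fun i => i.elim0) fun y hy => ?_⟩
    refine Iff.trans (b := y ∈ A \ I.Z) ?_ ((a3 hy).1.trans ?_)
    · rw [Subtype.range_coe]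
      exact ⟨fun k => ⟨h0 k, (a3 hy).2⟩, fun k => subset_closure k⟩
    · simp [Prod.ext_iff, a4 y hy, funext_iff, eq_comm]

end Ou

open Ou in
theorem res_of (h : P277Z.Hir.StMain) (hC : CLO) : RES := by
  intro N n M A I hA hS
  rcases n.eq_zero_or_pos with rfl | hn
  · exact res0 N M A I hA hS
  have : CompactSpace (closure (A \ I.Z)) := isCompact_iff_compactSpace.1 isClosed_closure.isCompact
  obtain ⟨o⟩ := h _ n univ hn (sp I hA hS (hC N M A _ hA I.an)) isCompact_univ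
  have h1 : Snc n o.G := snc_lab o.inj o.snc
  obtain ⟨r, G, e, a1, a2, a3, a4, a5⟩ := comp n (mf o) (I.pull (hol o)) o.r o.G h1 o.bad
    fun y γ hy =>
      let ⟨ζ, hζ, _⟩ := h1 y
      let ⟨e, k⟩ := mon o h1 (fun y a b => ((o.bad y).1 b).elim a) y γ hy ζ hζ
      ⟨e, ζ, hζ, k⟩
  have k := kahr n N (mf o) M _ o.r o.G o.c o.v (hol o) o.c0 (pos o)
  refine ⟨⟨mf o, _, ⟨hol o, fun y => closure_minimal sdiff_subset hA.closed (o.π y).2, o.dense,
    fun y b c => ?_, fun y => imm o⟩, r, G, a1, a2, a3, e, a4, a5, k.1, k.2⟩⟩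
  obtain ⟨x, hx⟩ := o.surj ⟨y, subset_closure ⟨b, c⟩⟩ (o.sub trivial) c
  exact ⟨x, congrArg Subtype.val hx, fun x' e => o.one x x' (hx ▸ c)
    ((Subtype.ext e).trans hx.symm)⟩

theorem Mon.cpb {n : ℕ} {X : Type} [TopologicalSpace X] [ChartedSpace (Cm n) X] {κ ι : Type}
    [Fintype κ] [Fintype ι] {f : ι → X → ℂ} {ζ : κ → X → ℂ} {e : κ → ℕ} {y : X}
    (h : Mon n f ζ e y) : Cpb (𝓝 y) (fun z => ∑ i, ‖f i z‖) fun z => ‖∏ l, ζ l z ^ e l‖ := by
  obtain ⟨c, h1, ⟨k, h2⟩, h3⟩ := h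
  have h4 : ContinuousAt (fun z => ∑ i, ‖c i z‖) y := tendsto_finsetSum _ fun i _ => (h1 i).cont.norm
  have p : 0 < ∑ i, ‖c i y‖ := (norm_pos_iff.2 h2).trans_le
    (Finset.single_le_sum (f := fun i => ‖c i y‖) (fun _ _ => norm_nonneg _) (Finset.mem_univ k))
  refine ⟨∑ i, ‖c i y‖ + 1 + 2 / ∑ i, ‖c i y‖, by positivity, ?_⟩
  filter_upwards [h3, h4.eventually (gt_mem_nhds (lt_add_one _)),
    h4.eventually (lt_mem_nhds (half_lt_self p))] with z a b d
  simp only [a, norm_mul, ← Finset.sum_mul]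
  have q : 0 < 2 / ∑ i, ‖c i y‖ := by positivity
  refine ⟨mul_le_mul_of_nonneg_right (by linarith) (norm_nonneg _), ?_⟩
  rw [← mul_assoc]
  refine le_mul_of_one_le_left (norm_nonneg _) ?_
  calc 1 = 2 / (∑ i, ‖c i y‖) * ((∑ i, ‖c i y‖) / 2) := by field_simp
    _ ≤ _ := mul_le_mul (by linarith) d.le (by positivity) (by positivity)

theorem res' (h : RES) : P281Z.RES := fun N n M A I hA hS =>
  let ⟨R⟩ := h N n M A I hA hS
  ⟨R.V, R.π, R.r, R.G, R.ovr, R.snc, Set.ext fun y => (R.bad y).trans mem_iUnion.symm,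
    fun y γ hy ζ hζ => ⟨R.e, (R.prin y γ hy ζ hζ).cpb⟩, R.kah, fun L a b => R.prj ⟨L, a, b⟩⟩

theorem idl' (h : IDL) : P281Z.IDL := fun N M B hB => (h N M B hB).imp fun _ k => k.1

end Vale.Agent.P281Z.Rs
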